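import Vale.Agent.P255.Glue.Open

/-!
Lifting a curve in the image of a collar.
-/

open Set Filter
open scoped Topology

namespace Vale.Agent.P255

noncomputable section

/-- The action of the lattice on the collar. -/
@[reducible] def collarAction : AddAction (ℤ × ℤ) collarSet where
  vadd g q := ⟨q.1 + latShift g.1 g.2, latShift_mem q.2 g.1 g.2⟩
  zero_vadd q := Subtype.ext (show q.1 + latShift 0 0 = q.1 by simp [latShift])
  add_vadd g g' q := Subtype.ext (show q.1 + latShift (g.1 + g'.1) (g.2 + g'.2) =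
    q.1 + latShift g'.1 g'.2 + latShift g.1 g.2 by
      simp [latShift, Prod.ext_iff]
      constructor <;> ring)

lemma lift_collar {N : ℕ} {P : Piece N} (Q : Model P) (e : Fin N) {c : ℝ → Q.M} {a b : ℝ}
    (hab : a ≤ b) (hc : ContinuousOn c (Icc a b))
    (hmem : ∀ s ∈ Icc a b, c s ∈ (fun q => Q.proj false (P.endMap e q)) '' collarSet) :
    ∃ x : ℝ → E3, ContinuousOn x (Icc a b) ∧
      ∀ s ∈ Icc a b, x s ∈ collarSet ∧ Q.proj false (P.endMap e (x s)) = c s := by
  let _act := collarAction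
  set B := Q.collar e '' collarSet with hB
  let g : collarSet → B := fun q => ⟨Q.collar e q.1, mem_image_of_mem _ q.2⟩
  have hcont : Continuous g :=
    (continuousOn_iff_continuous_domRestrict.1 (Q.continuousOn_collar e)).subtype_mk _
  have hopen : IsOpenMap g := by
    intro U hU
    obtain ⟨V, hV, rfl⟩ := isOpen_induced_iff.1 hU
    refine isOpen_induced_iff.2 ⟨Q.collar e '' (V ∩ collarSet), isOpen_image_of_map_nhds
      (fun x hx => Q.map_collar_nhds e hx.2) (hV.inter isOpen_collarSet), ?_⟩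
    ext y
    constructor
    · rintro ⟨x, hx, hxy⟩
      exact ⟨⟨x, hx.2⟩, hx.1, Subtype.ext hxy⟩
    · rintro ⟨q, hq, rfl⟩
      exact ⟨q.1, ⟨hq, q.2⟩, rfl⟩
  have hsurj : Function.Surjective g := by
    rintro ⟨y, q, hq, rfl⟩
    exact ⟨⟨q, hq⟩, rfl⟩
  have : ContinuousConstVAdd (ℤ × ℤ) collarSet :=
    ⟨fun i => (continuous_subtype_val.add continuous_const).subtype_mk _⟩
  have hcov : IsAddQuotientCoveringMap g (ℤ × ℤ) := by
    refine { toIsQuotientMap := hopen.isQuotientMap hcont hsurj,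
             apply_eq_iff_mem_orbit := ?_, disjoint := fun q => ?_ }
    · intro q q'
      rw [AddAction.mem_orbit_iff]
      constructor
      · intro h
        obtain ⟨i, j, hij⟩ := (Q.collar_eq_iff e q'.2 q.2).1 (congrArg Subtype.val h).symm
        exact ⟨(i, j), Subtype.ext hij.symm⟩
      · rintro ⟨i, rfl⟩
        exact Subtype.ext ((Q.collar_eq_iff e q'.2 (i +ᵥ q').2).2 ⟨i.1, i.2, rfl⟩).symm
    · refine ⟨Subtype.val ⁻¹' Metric.ball q.1 (1 / 3),
        continuous_subtype_val.continuousAt.preimage_mem_nhds (Metric.ball_mem_nhds _ (by norm_num)),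
        fun i hi => ?_⟩
      obtain ⟨y, ⟨x, hx, rfl⟩, hy⟩ := hi
      have h1 : dist (x.1 + latShift i.1 i.2) q.1 < 1 / 3 := hy
      have h2 : dist x.1 q.1 < 1 / 3 := hx
      have h3 : ‖latShift i.1 i.2‖ < 1 := by
        have h := dist_triangle_right (x.1 + latShift i.1 i.2) x.1 q.1
        rw [dist_eq_norm, add_sub_cancel_left] at h
        linarith
      simp only [latShift, Prod.norm_def, norm_zero, max_lt_iff, Real.norm_eq_abs] at h3
      obtain ⟨-, h4, h5⟩ := h3
      have h4' : |i.1| < 1 := by exact_mod_cast h4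
      have h5' : |i.2| < 1 := by exact_mod_cast h5
      exact Prod.ext (Int.abs_lt_one_iff.1 h4') (Int.abs_lt_one_iff.1 h5')
  have cov : IsCoveringMap g := hcov.isCoveringMap
  have hseg : ∀ t : unitInterval, a + (t : ℝ) * (b - a) ∈ Icc a b := fun t =>
    ⟨by nlinarith [t.2.1], by nlinarith [t.2.2]⟩
  let γ : C(unitInterval, B) :=
    ⟨fun t => ⟨c (a + (t : ℝ) * (b - a)), hmem _ (hseg t)⟩,
      (hc.comp_continuous (by fun_prop) hseg).subtype_mk _⟩
  obtain ⟨q₀, hq₀⟩ := hsurj (γ 0)
  set Γ := cov.liftPath γ q₀ hq₀.symm with hΓ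
  set x : ℝ → E3 := fun s => (Γ (projIcc 0 1 zero_le_one ((s - a) / (b - a)))).1 with hx
  refine ⟨x, (continuous_subtype_val.comp (Γ.continuous.comp
    (continuous_projIcc.comp ((continuous_id.sub continuous_const).div_const _)))).continuousOn,
    fun s hs => ⟨(Γ _).2, ?_⟩⟩
  have h := congrArg Subtype.val
    (congrFun (cov.liftPath_lifts γ q₀ hq₀.symm) (projIcc 0 1 zero_le_one ((s - a) / (b - a))))
  refine h.trans ?_
  show c _ = c s
  congr 1
  rcases hab.eq_or_lt with he | hlt
  · obtain rfl : s = a := le_antisymm (he ▸ hs.2) hs.1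
    simp [← he]
  · rw [projIcc_of_mem zero_le_one ⟨div_nonneg (by linarith [hs.1]) (by linarith),
      (div_le_one (by linarith)).2 (by linarith [hs.2])⟩]
    show a + (s - a) / (b - a) * (b - a) = s
    rw [div_mul_cancel₀ _ (by linarith : b - a ≠ 0)]
    ring

end

end Vale.Agent.P255
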