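import Vale.Agent.P255.Space
import Vale.Agent.P216.Chord.Var

/-!
A manifold as the quotient of two copies of an open set by a relation given by local isometries.
-/

open Bundle Manifold Set Metric Function
open scoped ContDiff Topology

namespace Vale.Agent.P255.Glue

noncomputable section

/-- A relation on two copies of an open set, given by local isometries, separated in each copy. -/
structure QData where
  /-- The open set. -/
  U : Set E3
  isOpen : IsOpen U
  /-- A point. -/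
  y₀ : E3
  y₀_mem : y₀ ∈ U
  /-- The metric. -/
  G : E3 → E3 →L[ℝ] E3 →L[ℝ] ℝ
  isMetric : P216.Chord.IsMetricOn U G
  /-- The relation. -/
  Rel : Bool × E3 → Bool × E3 → Prop
  refl' : ∀ b : Bool, ∀ y ∈ U, Rel (b, y) (b, y)
  symm' : ∀ {x y}, Rel x y → Rel y x
  trans' : ∀ {x y z}, Rel x y → Rel y z → Rel x z
  mem : ∀ {x y}, Rel x y → x.2 ∈ U ∧ y.2 ∈ U
  sep : ∀ b z z', Rel (b, z) (b, z') → dist z z' < 1 → z = z'
  move : ∀ {x y}, Rel x y → ∃ (φ : E3 → E3) (V : Set E3), IsOpen V ∧ x.2 ∈ V ∧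
    ContDiffOn ℝ ∞ φ V ∧ φ x.2 = y.2 ∧ ∀ z ∈ V, Rel (x.1, z) (y.1, φ z) ∧
      ∀ u w, G (φ z) (fderiv ℝ φ z u) (fderiv ℝ φ z w) = G z u w

namespace QData

variable (D : QData)

/-- The two copies. -/
abbrev Pts : Type := Bool × ↥D.U

/-- The setoid of the relation. -/
def setoid : Setoid D.Pts where
  r x y := D.Rel (x.1, x.2.1) (y.1, y.2.1)
  iseqv := ⟨fun x => D.refl' _ _ x.2.2, D.symm', D.trans'⟩

/-- The quotient. -/
def Carrier : Type := Quotient D.setoid

instance : TopologicalSpace D.Carrier := inferInstanceAs (TopologicalSpace (Quotient D.setoid))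

/-- The projection. -/
def cls (x : D.Pts) : D.Carrier := Quotient.mk D.setoid x

theorem continuous_cls : Continuous D.cls := continuous_quotient_mk'

theorem isQuotientMap_cls : Topology.IsQuotientMap D.cls :=
  isQuotientMap_quotient_mk' (s := D.setoid)

theorem cls_surjective : Function.Surjective D.cls := Quotient.exists_rep

theorem cls_eq_cls {x y : D.Pts} : D.cls x = D.cls y ↔ D.Rel (x.1, x.2.1) (y.1, y.2.1) :=
  Quotient.eq''

open Classical in
/-- The coordinates of one copy. -/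
def proj (b : Bool) (y : E3) : D.Carrier :=
  if h : y ∈ D.U then D.cls (b, ⟨y, h⟩) else D.cls (false, ⟨D.y₀, D.y₀_mem⟩)

theorem proj_apply {b : Bool} {y : E3} (h : y ∈ D.U) : D.proj b y = D.cls (b, ⟨y, h⟩) := by
  simp [proj, h]

theorem proj_eq_proj {b b' : Bool} {y y' : E3} (h : y ∈ D.U) (h' : y' ∈ D.U) :
    D.proj b y = D.proj b' y' ↔ D.Rel (b, y) (b', y') := by
  rw [D.proj_apply h, D.proj_apply h', cls_eq_cls]

theorem proj_eq_of_rel {x y : Bool × E3} (h : D.Rel x y) : D.proj x.1 x.2 = D.proj y.1 y.2 :=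
  (D.proj_eq_proj (D.mem h).1 (D.mem h).2).2 h

theorem continuousOn_proj (b : Bool) : ContinuousOn (D.proj b) D.U := by
  rw [continuousOn_iff_continuous_domRestrict]
  exact (D.continuous_cls.comp (continuous_const.prodMk continuous_id)).congr
    fun y => (D.proj_apply y.2).symm

theorem isOpen_image_proj (b : Bool) {O : Set E3} (hO : IsOpen O) (hOU : O ⊆ D.U) :
    IsOpen (D.proj b '' O) := by
  rw [← D.isQuotientMap_cls.isOpen_preimage]
  rw [isOpen_iff_mem_nhds]
  rintro ⟨c, y⟩ ⟨z, hz, hzy⟩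
  rw [D.proj_apply (hOU hz), cls_eq_cls] at hzy
  obtain ⟨φ, V, hV, hyV, hφ, hφy, hφr⟩ := D.move (D.symm' hzy)
  have hn : {c} ×ˢ (Subtype.val ⁻¹' (V ∩ φ ⁻¹' O) : Set ↥D.U) ∈ 𝓝 (c, y) :=
    prod_mem_nhds (mem_nhds_discrete.2 rfl)
      ((continuous_subtype_val.isOpen_preimage _ (hφ.continuousOn.isOpen_inter_preimage hV hO)
        ).mem_nhds ⟨hyV, by simpa [hφy] using hz⟩)
  refine Filter.mem_of_superset hn ?_
  rintro ⟨c', y'⟩ ⟨rfl, hy', hy''⟩
  refine ⟨φ y', hy'', ?_⟩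
  rw [D.proj_apply (hOU hy''), cls_eq_cls]
  exact D.symm' (hφr _ hy').1

theorem isOpenQuotientMap_cls : IsOpenQuotientMap D.cls := by
  refine ⟨D.cls_surjective, D.continuous_cls, fun S hS => ?_⟩
  have e : D.cls '' S = ⋃ b : Bool,
      D.proj b '' (Subtype.val '' ((fun y : ↥D.U => (b, y)) ⁻¹' S)) := by
    ext m
    simp only [mem_iUnion, mem_image]
    constructor
    · rintro ⟨⟨b, y⟩, hy, rfl⟩
      exact ⟨b, y.1, ⟨y, hy, rfl⟩, D.proj_apply y.2⟩
    · rintro ⟨b, _, ⟨y, hy, rfl⟩, rfl⟩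
      exact ⟨(b, y), hy, (D.proj_apply y.2).symm⟩
  rw [e]
  refine isOpen_iUnion fun b => D.isOpen_image_proj b
    (D.isOpen.isOpenMap_subtype_val _ (hS.preimage (continuous_const.prodMk continuous_id))) ?_
  rintro _ ⟨y, -, rfl⟩
  exact y.2

theorem injOn_proj (x : D.Pts) : InjOn (D.proj x.1) (ball x.2.1 (1 / 3) ∩ D.U) := by
  intro z hz z' hz' e
  rw [D.proj_eq_proj hz.2 hz'.2] at e
  refine D.sep _ _ _ e ?_
  have := dist_triangle_right z z' x.2.1
  linarith [mem_ball.1 hz.1, mem_ball.1 hz'.1]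

/-- The parametrisation around a point. -/
def par (x : D.Pts) : OpenPartialHomeomorph E3 D.Carrier :=
  haveI : Nonempty E3 := ⟨0⟩
  OpenPartialHomeomorph.ofContinuousOpenRestrict ((D.injOn_proj x).toPartialEquiv (D.proj x.1) _)
    ((D.continuousOn_proj _).mono inter_subset_right)
    (fun W hW => by
      have hO : IsOpen (Subtype.val '' W : Set E3) :=
        (isOpen_ball.inter D.isOpen).isOpenMap_subtype_val _ hW
      change IsOpen ((ball x.2.1 (1 / 3) ∩ D.U).domRestrict (D.proj x.1) '' W)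
      rw [show (ball x.2.1 (1 / 3) ∩ D.U).domRestrict (D.proj x.1) '' W =
        D.proj x.1 '' (Subtype.val '' W) by rw [image_image]; rfl]
      exact D.isOpen_image_proj _ hO (by rintro _ ⟨y, -, rfl⟩; exact y.2.2))
    (isOpen_ball.inter D.isOpen)

theorem par_apply (x : D.Pts) : (D.par x : E3 → D.Carrier) = D.proj x.1 := rfl

theorem par_source (x : D.Pts) : (D.par x).source = ball x.2.1 (1 / 3) ∩ D.U := rfl

theorem mem_par_source (x : D.Pts) : x.2.1 ∈ (D.par x).source := by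
  rw [par_source]
  exact ⟨mem_ball_self (by norm_num), x.2.2⟩

/-- The chosen representative. -/
def rep (m : D.Carrier) : D.Pts := Quotient.out m

theorem cls_rep (m : D.Carrier) : D.cls (D.rep m) = m := Quotient.out_eq m

theorem proj_rep (m : D.Carrier) : D.proj (D.rep m).1 (D.rep m).2.1 = m := by
  rw [D.proj_apply (D.rep m).2.2]
  exact D.cls_rep m

theorem rel_rep {b : Bool} {y : E3} (hy : y ∈ D.U) :
    D.Rel (b, y) ((D.rep (D.proj b y)).1, (D.rep (D.proj b y)).2.1) :=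
  (D.proj_eq_proj hy (D.rep (D.proj b y)).2.2).1 (D.proj_rep _).symm

instance : ChartedSpace E3 D.Carrier where
  atlas := range fun x => (D.par x).symm
  chartAt m := (D.par (D.rep m)).symm
  mem_chart_source m := by
    have := (D.par (D.rep m)).map_source (D.mem_par_source _)
    rw [par_apply, proj_rep] at this
    simpa using this
  chart_mem_atlas m := ⟨_, rfl⟩

/-- A move and the chart of the target agree near the point. -/
theorem symm_eventuallyEq {b : Bool} {z : E3} {x : D.Pts} {φ : E3 → E3} {V : Set E3}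
    (hV : IsOpen V) (hz : z ∈ V) (hφ : ContDiffOn ℝ ∞ φ V)
    (hr : ∀ w ∈ V, D.Rel (b, w) (x.1, φ w)) (hs : φ z ∈ (D.par x).source) :
    (fun w => (D.par x).symm (D.proj b w)) =ᶠ[𝓝 z] φ := by
  filter_upwards [(hφ.continuousOn.isOpen_inter_preimage hV (D.par x).open_source).mem_nhds
    ⟨hz, hs⟩] with w hw
  rw [D.proj_eq_of_rel (hr w hw.1)]
  exact (D.par x).left_inv hw.2

theorem contDiffAt_trans (x x' : D.Pts) {z : E3} (hz : z ∈ (D.par x).source)
    (hz' : D.proj x.1 z ∈ (D.par x').target) :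
    ContDiffAt ℝ ∞ (fun w => (D.par x').symm (D.proj x.1 w)) z := by
  set z' := (D.par x').symm (D.proj x.1 z)
  have hs : z' ∈ (D.par x').source := (D.par x').map_target hz'
  have he : D.proj x'.1 z' = D.proj x.1 z := (D.par x').right_inv hz'
  rw [par_source] at hz
  rw [D.proj_eq_proj (D.par_source x' ▸ hs).2 hz.2] at he
  obtain ⟨φ, V, hV, hzV, hφ, hφz, hr⟩ := D.move (D.symm' he)
  refine (hφ.contDiffAt (hV.mem_nhds hzV)).congr_of_eventuallyEq
    (D.symm_eventuallyEq hV hzV hφ (fun w hw => (hr w hw).1) (by rw [hφz]; exact hs))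

instance : IsManifold 𝓘(ℝ, E3) ∞ D.Carrier := by
  refine isManifold_of_contDiffOn _ _ _ ?_
  rintro _ _ ⟨x, rfl⟩ ⟨x', rfl⟩
  intro z hz
  simp only [modelWithCornersSelf_coe, modelWithCornersSelf_coe_symm, Function.comp_def, id_eq,
    OpenPartialHomeomorph.trans_source, OpenPartialHomeomorph.symm_source,
    OpenPartialHomeomorph.symm_symm, preimage_id_eq, range_id, inter_univ, mem_inter_iff,
    mem_preimage] at hz ⊢
  exact (D.contDiffAt_trans x x' hz.1 hz.2).contDiffWithinAt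

theorem par_symm_mem_maximalAtlas (x : D.Pts) :
    (D.par x).symm ∈ IsManifold.maximalAtlas 𝓘(ℝ, E3) ∞ D.Carrier :=
  IsManifold.subset_maximalAtlas ⟨x, rfl⟩

theorem contMDiffOn_proj (b : Bool) : ContMDiffOn 𝓘(ℝ, E3) 𝓘(ℝ, E3) ∞ (D.proj b) D.U := by
  intro y hy
  have h := contMDiffOn_symm_of_mem_maximalAtlas (D.par_symm_mem_maximalAtlas (b, ⟨y, hy⟩))
  rw [OpenPartialHomeomorph.symm_symm, par_apply, OpenPartialHomeomorph.symm_target] at h
  exact (h.contMDiffAt ((D.par (b, ⟨y, hy⟩)).open_source.mem_nhds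
    (D.mem_par_source (b, ⟨y, hy⟩)))).contMDiffWithinAt

theorem chart_comp_proj (m : D.Carrier) (b : Bool) {z : E3} (hz : z ∈ D.U) (h : D.proj b z = m) :
    ∃ φ : E3 → E3, DifferentiableAt ℝ φ z ∧
      (fun w => extChartAt 𝓘(ℝ, E3) m (D.proj b w)) =ᶠ[𝓝 z] φ ∧ φ z = (D.rep m).2.1 ∧
      ∀ u w, D.G (D.rep m).2.1 (fderiv ℝ φ z u) (fderiv ℝ φ z w) = D.G z u w := by
  subst h
  obtain ⟨φ, V, hV, hzV, hφ, hφz, hr⟩ := D.move (D.rel_rep (b := b) hz)
  refine ⟨φ, (hφ.contDiffAt (hV.mem_nhds hzV)).differentiableAt (by simp), ?_, hφz, fun u w => ?_⟩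
  · refine Filter.EventuallyEq.trans ?_ (D.symm_eventuallyEq (x := D.rep (D.proj b z)) hV hzV hφ
      (fun w hw => (hr w hw).1) ?_)
    · exact Filter.Eventually.of_forall fun w => by simp [chartAt, ChartedSpace.chartAt]
    · show φ z ∈ _
      rw [hφz]
      exact D.mem_par_source _
  · have := (hr z hzV).2 u w
    rwa [hφz] at this

/-- The derivative of the coordinates of a copy, read at the chosen representative. -/
theorem mfderiv_proj (b : Bool) {z : E3} (hz : z ∈ D.U) (u w : E3) :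
    D.G (D.rep (D.proj b z)).2.1 (mfderiv 𝓘(ℝ, E3) 𝓘(ℝ, E3) (D.proj b) z u)
      (mfderiv 𝓘(ℝ, E3) 𝓘(ℝ, E3) (D.proj b) z w) = D.G z u w := by
  obtain ⟨φ, -, he, -, hG⟩ := D.chart_comp_proj _ b hz rfl
  have hd : MDifferentiableAt 𝓘(ℝ, E3) 𝓘(ℝ, E3) (D.proj b) z :=
    ((D.contMDiffOn_proj b).contMDiffAt (D.isOpen.mem_nhds hz)).mdifferentiableAt (by simp)
  have h1 : mfderiv 𝓘(ℝ, E3) 𝓘(ℝ, E3) (D.proj b) z =
      fderiv ℝ (fun w => extChartAt 𝓘(ℝ, E3) (D.proj b z) (D.proj b w)) z := by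
    simp [mfderiv, hd, writtenInExtChartAt, Function.comp_def, fderivWithin_univ, chartAt_self_eq]
    rfl
  rw [h1, he.fderiv_eq]
  exact hG u w

theorem bijective_mfderiv_proj (b : Bool) {z : E3} (hz : z ∈ D.U) :
    Function.Bijective (mfderiv 𝓘(ℝ, E3) 𝓘(ℝ, E3) (D.proj b) z) := by
  set L : E3 →L[ℝ] E3 := mfderiv 𝓘(ℝ, E3) 𝓘(ℝ, E3) (D.proj b) z with hL
  have hi : Function.Injective (L : E3 →ₗ[ℝ] E3) := by
    refine (injective_iff_map_eq_zero _).2 fun v hv => by_contra fun hne => ?_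
    have h : D.G (D.rep (D.proj b z)).2.1 (L v) (L v) = D.G z v v := D.mfderiv_proj b hz v v
    rw [show L v = 0 from hv, map_zero] at h
    exact absurd (D.isMetric.pos z hz v hne) (by simp [← h])
  exact ⟨hi, LinearMap.injective_iff_surjective (V := E3) (f := (L : E3 →ₗ[ℝ] E3)) |>.1 hi⟩

theorem isVonNBounded_form {B : E3 →L[ℝ] E3 →L[ℝ] ℝ} (hB : ∀ v, v ≠ 0 → 0 < B v v) :
    Bornology.IsVonNBounded ℝ {v : E3 | B v v < 1} := by
  rw [NormedSpace.isVonNBounded_iff]
  obtain ⟨v₀, hv₀, hmin⟩ := (isCompact_sphere (0 : E3) 1).exists_isMinOn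
    (NormedSpace.sphere_nonempty.2 zero_le_one) (by fun_prop : Continuous fun v => B v v).continuousOn
  have hc : 0 < B v₀ v₀ := hB v₀ (by rintro rfl; simp at hv₀)
  refine (isBounded_closedBall (x := (0 : E3)) (r := √(1 / B v₀ v₀))).subset fun v hv => ?_
  rw [mem_closedBall_zero_iff]
  rcases eq_or_ne v 0 with rfl | hne
  · simp
  have hn : 0 < ‖v‖ := norm_pos_iff.2 hne
  have h := hmin (show ‖v‖⁻¹ • v ∈ sphere (0 : E3) 1 by
    simp [norm_smul, hn.ne'])
  simp only [mem_ofPred_eq, map_smul, smul_apply, smul_eq_mul] at h hv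
  refine Real.le_sqrt_of_sq_le ?_
  rw [le_div_iff₀ hc]
  have h2 := mul_le_mul_of_nonneg_left h (sq_nonneg ‖v‖)
  field_simp at h2
  nlinarith

/-- The metric of the quotient. -/
def metric :
    ContMDiffRiemannianMetric 𝓘(ℝ, E3) ∞ E3 (fun x : D.Carrier => TangentSpace 𝓘(ℝ, E3) x) where
  inner m := D.G (D.rep m).2.1
  symm m v w := D.isMetric.symm _ (D.rep m).2.2 v w
  pos m v hv := D.isMetric.pos _ (D.rep m).2.2 v hv
  isVonNBounded m := isVonNBounded_form (D.isMetric.pos _ (D.rep m).2.2)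
  contMDiff m₀ := by
    refine (contMDiffAt_section (E := fun x : D.Carrier =>
      TangentSpace 𝓘(ℝ, E3) x →L[ℝ] TangentSpace 𝓘(ℝ, E3) x →L[ℝ] ℝ) _).2 ?_
    have hG : ContMDiffAt 𝓘(ℝ, E3) 𝓘(ℝ, E3 →L[ℝ] E3 →L[ℝ] ℝ) ∞
        (fun m => D.G (extChartAt 𝓘(ℝ, E3) m₀ m)) m₀ := by
      have hU : extChartAt 𝓘(ℝ, E3) m₀ m₀ ∈ D.U := by
        have h := (extChartAt 𝓘(ℝ, E3) m₀).map_source (mem_extChartAt_source m₀)
        simp [chartAt, ChartedSpace.chartAt, par_source] at h ⊢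
        exact h.2
      exact ((D.isMetric.smooth.contDiffAt (D.isOpen.mem_nhds hU)).contMDiffAt).comp m₀
        contMDiffAt_extChartAt
    refine hG.congr_of_eventuallyEq ?_
    filter_upwards [(chartAt E3 m₀).open_source.mem_nhds (mem_chart_source E3 m₀)] with m hm
    rw [hom_trivializationAt_apply]
    refine ContinuousLinearMap.ext fun v => ContinuousLinearMap.ext fun w => ?_
    show ContinuousLinearMap.inCoordinates E3 (TangentSpace 𝓘(ℝ, E3)) (E3 →L[ℝ] ℝ)
      (fun x => TangentSpace 𝓘(ℝ, E3) x →L[ℝ] ℝ) m₀ m m₀ m (D.G (D.rep m).2.1) v w =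
      D.G (extChartAt 𝓘(ℝ, E3) m₀ m) v w
    refine (inCoordinates_apply_eq₂ (F₁ := E3) (E₁ := fun x : D.Carrier => TangentSpace 𝓘(ℝ, E3) x)
      (F₂ := E3) (E₂ := fun x : D.Carrier => TangentSpace 𝓘(ℝ, E3) x) (F₃ := ℝ)
      (E₃ := fun _ => ℝ) (by simpa using hm) (by simpa using hm) (Set.mem_univ _)).trans ?_
    simp only [Trivial.fiberBundle_trivializationAt', Trivial.linearMapAt_trivialization,
      LinearMap.id_coe, id_eq]
    rw [← Trivialization.symmL_apply (R := ℝ), ← Trivialization.symmL_apply (R := ℝ),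
      TangentBundle.symmL_trivializationAt_eq_core hm, tangentBundleCore_coordChange_achart]
    set z := extChartAt 𝓘(ℝ, E3) m₀ m with hzdef
    have hzt : z ∈ (extChartAt 𝓘(ℝ, E3) m₀).target :=
      (extChartAt 𝓘(ℝ, E3) m₀).map_source (by simpa using hm)
    have hz : z ∈ D.U := by
      have h := hzt
      simp [chartAt, ChartedSpace.chartAt, par_source] at h
      exact h.2
    have hm' : D.proj (D.rep m₀).1 z = m := by
      have h := (extChartAt 𝓘(ℝ, E3) m₀).left_inv (x := m) (by simpa using hm)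
      simpa [chartAt, ChartedSpace.chartAt, par_apply, hzdef] using h
    obtain ⟨φ, -, he, -, hφG⟩ := D.chart_comp_proj m _ hz hm'
    have e2 : (extChartAt 𝓘(ℝ, E3) m ∘ (extChartAt 𝓘(ℝ, E3) m₀).symm) =
        fun w => extChartAt 𝓘(ℝ, E3) m (D.proj (D.rep m₀).1 w) := by
      funext w
      simp [chartAt, ChartedSpace.chartAt, par_apply]
    rw [modelWithCornersSelf_coe, range_id, fderivWithin_univ, e2, he.fderiv_eq]
    exact hφG v w
    all_goals simpa using hm

theorem metric_pull (b : Bool) {z : E3} (hz : z ∈ D.U) (u w : E3) :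
    D.metric.inner (D.proj b z) (mfderiv 𝓘(ℝ, E3) 𝓘(ℝ, E3) (D.proj b) z u)
      (mfderiv 𝓘(ℝ, E3) 𝓘(ℝ, E3) (D.proj b) z w) = D.G z u w :=
  D.mfderiv_proj b hz u w

end QData

end

end Vale.Agent.P255.Glue
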