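import Vale.Agent.P255.Collar
import Vale.Agent.P255.Model
import Vale.Agent.P255.Glue.Quotient

/-!
The glued manifold of a piece.
-/

open Set Filter Manifold
open scoped ContDiff Topology

namespace Vale.Agent.P255.Glue

noncomputable section

variable {N : ℕ} (P : Piece N)

/-- The planar part. -/
def planar (y : E3) : ℝ × ℝ := (y.1, y.2.1)

/-- An integral vertical vector. -/
def vert (l : ℤ) : E3 := (0, 0, (l : ℝ))

theorem continuous_planar : Continuous planar := by unfold planar; fun_prop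

theorem planar_add_vert (y : E3) (s : ℝ) : planar (y + (0, 0, s)) = planar y := by
  simp [planar]

theorem vert_add (a b : ℤ) : vert (a + b) = vert a + vert b := by simp [vert]

theorem vert_neg (a : ℤ) : vert (-a) = -vert a := by simp [vert]

theorem vert_sub (a b : ℤ) : vert (a - b) = vert a - vert b := by
  rw [sub_eq_add_neg, vert_add, vert_neg, ← sub_eq_add_neg]

theorem isClosed_range_vert : IsClosed (range vert) := by
  have e : range vert = {y : E3 | y.1 = 0 ∧ y.2.1 = 0 ∧ y.2.2 ∈ range ((↑) : ℤ → ℝ)} := by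
    ext ⟨a, b, c⟩
    constructor
    · rintro ⟨l, hl⟩
      simp only [vert, Prod.mk.injEq] at hl
      obtain ⟨rfl, rfl, rfl⟩ := hl
      exact ⟨rfl, rfl, l, rfl⟩
    · rintro ⟨ha, hb, l, hl⟩
      exact ⟨l, by simp_all [vert]⟩
  rw [e]
  exact (isClosed_eq (by fun_prop) continuous_const).inter
    ((isClosed_eq (by fun_prop) continuous_const).inter
      (Int.isClosedEmbedding_coe_real.isClosed_range.preimage (by fun_prop)))

theorem add_vert_mem {y : E3} (hy : y ∈ P.dom3) (s : ℝ) : y + (0, 0, s) ∈ P.dom3 := by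
  show ((y + (0, 0, s)).1, (y + (0, 0, s)).2.1) ∈ P.dom
  simpa [Piece.dom3] using hy

theorem isOpen_dom3 : IsOpen P.dom3 := P.isOpen_dom.preimage (by fun_prop)

theorem endMap_mem (e : Fin N) {q : E3} (hq : q ∈ collarSet) : P.endMap e q ∈ P.dom3 :=
  P.end_mem e q hq

theorem metric_add_vert (y : E3) (s : ℝ) : P.metric (y + (0, 0, s)) = P.metric y := by
  obtain ⟨a, b, c⟩ := y
  show P.metric (a + 0, b + 0, c + s) = _
  rw [add_zero, add_zero]
  exact P.metric_fiber _ _ _ _

theorem isOpen_collarSet : IsOpen collarSet := isOpen_Ioo.preimage continuous_fst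

theorem add_fib_mem {q : E3} (hq : q ∈ collarSet) (s : ℝ) : q + (0, s, 0) ∈ collarSet := by
  simpa [collarSet] using hq

theorem shift_mem {q : E3} (hq : q ∈ collarSet) (i j : ℤ) : q + latShift i j ∈ collarSet := by
  simpa [collarSet, latShift] using hq

theorem latTurn_mem {q : E3} (hq : q ∈ collarSet) : latTurn q ∈ collarSet := by
  simp only [collarSet, latTurn, collarTurn, mem_ofPred_eq, mem_Ioo] at hq ⊢
  constructor <;> simp <;> linarith [hq.1, hq.2]

theorem latTurn_fst (q : E3) : (latTurn q).1 = -q.1 := by simp [latTurn, collarTurn]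

theorem latTurn_shift (q : E3) (i j : ℤ) :
    latTurn (q + latShift i j) = latTurn q + latShift j (-i) := by
  simp [map_add, latShift, latTurn, collarTurn]

/-- The inverse of the quarter turn. -/
def latBack : E3 →L[ℝ] E3 := latTurn.comp (latTurn.comp latTurn)

theorem latTurn_back (q : E3) : latTurn (latBack q) = q := by
  simp [latBack, latTurn, collarTurn]

theorem latBack_turn (q : E3) : latBack (latTurn q) = q := by
  simp [latBack, latTurn, collarTurn]

theorem latBack_mem {q : E3} (hq : q ∈ collarSet) : latBack q ∈ collarSet :=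
  latTurn_mem (latTurn_mem (latTurn_mem hq))

theorem latBack_fst (q : E3) : (latBack q).1 = -q.1 := by
  simp [latBack, latTurn_fst]

theorem latBack_shift (q : E3) (i j : ℤ) :
    latBack (q + latShift i j) = latBack q + latShift (-j) i := by
  simp [latBack, latTurn_shift]

theorem latMetric_turn (hC : CollarGood N) {q : E3} (hq : q ∈ collarSet) (u w : E3) :
    latMetric N (latTurn q) (latTurn u) (latTurn w) = latMetric N q u w := by
  have e : ∀ x : E3, latMap N (latTurn x) = collarTurn (latMap N x) := fun x => by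
    simp only [latMap, latTurn, collarTurn]
    refine Prod.ext ?_ (Prod.ext ?_ ?_) <;> simp <;> ring
  simp only [latMetric, ContinuousLinearMap.bilinearComp_apply, e]
  exact hC.turn _ (by simpa [collarSet, latMap] using hq) _ _

theorem latMetric_back (hC : CollarGood N) {q : E3} (hq : q ∈ collarSet) (u w : E3) :
    latMetric N (latBack q) (latBack u) (latBack w) = latMetric N q u w := by
  have h := latMetric_turn hC (latBack_mem hq) (latBack u) (latBack w)
  rw [latTurn_back, latTurn_back, latTurn_back] at h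
  exact h.symm

/-- A symmetry of the collar compatible with the lattice. -/
structure LatSym (N : ℕ) where
  /-- The map. -/
  T : E3 →L[ℝ] E3
  mem : ∀ q ∈ collarSet, T q ∈ collarSet
  shift : ∀ q : E3, ∀ i j : ℤ, ∃ i' j' : ℤ, T (q + latShift i j) = T q + latShift i' j'
  isom : ∀ q ∈ collarSet, ∀ u w, latMetric N (T q) (T u) (T w) = latMetric N q u w

/-- The quarter turn as a symmetry. -/
def turnSym (hC : CollarGood N) : LatSym N :=
  ⟨latTurn, fun _ => latTurn_mem, fun q i j => ⟨_, _, latTurn_shift q i j⟩,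
    fun _ hq => latMetric_turn hC hq⟩

/-- The inverse quarter turn as a symmetry. -/
def backSym (hC : CollarGood N) : LatSym N :=
  ⟨latBack, fun _ => latBack_mem, fun q i j => ⟨_, _, latBack_shift q i j⟩,
    fun _ hq => latMetric_back hC hq⟩

/-- The local inverse of an end. -/
def endChart (e : Fin N) (q : E3) (hq : q ∈ collarSet) : OpenPartialHomeomorph E3 E3 :=
  ((P.end_smooth e).contDiffAt (isOpen_collarSet.mem_nhds hq)).toOpenPartialHomeomorph
    (P.endMap e)
    (f' := (LinearEquiv.ofBijective (fderiv ℝ (P.endMap e) q : E3 →ₗ[ℝ] E3)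
      (P.end_inv e q hq)).toContinuousLinearEquiv)
    ((((P.end_smooth e).contDiffAt (isOpen_collarSet.mem_nhds hq)).differentiableAt
      (by simp)).hasFDerivAt.congr_fderiv (by ext <;> rfl))
    (by simp)

theorem endChart_coe (e : Fin N) (q : E3) (hq : q ∈ collarSet) :
    (endChart P e q hq : E3 → E3) = P.endMap e := rfl

theorem mem_endChart_source (e : Fin N) (q : E3) (hq : q ∈ collarSet) :
    q ∈ (endChart P e q hq).source :=
  ContDiffAt.mem_toOpenPartialHomeomorph_source _ _ _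

theorem mem_endChart_target (e : Fin N) (q : E3) (hq : q ∈ collarSet) :
    P.endMap e q ∈ (endChart P e q hq).target :=
  (endChart P e q hq).map_source (mem_endChart_source P e q hq)

theorem endChart_symm_apply (e : Fin N) (q : E3) (hq : q ∈ collarSet) :
    (endChart P e q hq).symm (P.endMap e q) = q :=
  (endChart P e q hq).left_inv (mem_endChart_source P e q hq)

/-- Through an end: the local isometry given by a symmetry of the collar. -/
theorem exists_move (S : LatSym N) (e : Fin N) {q : E3} (hq : q ∈ collarSet) (a a' : ℤ) :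
    ∃ (φ : E3 → E3) (V : Set E3), IsOpen V ∧ P.endMap e q - vert a ∈ V ∧ ContDiffOn ℝ ∞ φ V ∧
      φ (P.endMap e q - vert a) = P.endMap e (S.T q) - vert a' ∧
      ∀ z ∈ V, (∃ r ∈ collarSet, P.endMap e r = z + vert a ∧
        P.endMap e (S.T r) = φ z + vert a') ∧
        ∀ u w, P.metric (φ z) (fderiv ℝ φ z u) (fderiv ℝ φ z w) = P.metric z u w := by
  set σ := endChart P e q hq with hσ
  set W : Set E3 := σ.target ∩ σ.symm ⁻¹' collarSet
  have hW : IsOpen W := σ.isOpen_inter_preimage_symm isOpen_collarSet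
  have hσs : ContDiffOn ℝ ∞ σ.symm W := by
    intro w hw
    refine ContDiffAt.contDiffWithinAt ?_
    have hs : ContDiffAt ℝ ∞ (P.endMap e) (σ.symm w) :=
      (P.end_smooth e).contDiffAt (isOpen_collarSet.mem_nhds hw.2)
    exact σ.contDiffAt_symm hw.1
      (f₀' := (LinearEquiv.ofBijective (fderiv ℝ (P.endMap e) (σ.symm w) : E3 →ₗ[ℝ] E3)
        (P.end_inv e _ hw.2)).toContinuousLinearEquiv)
      ((hs.differentiableAt (by simp)).hasFDerivAt.congr_fderiv (by ext <;> rfl)) hs
  refine ⟨fun z => P.endMap e (S.T (σ.symm (z + vert a))) - vert a', (· + vert a) ⁻¹' W,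
    hW.preimage (by fun_prop), ?_, ?_, ?_, fun z hz => ?_⟩
  · show P.endMap e q - vert a + vert a ∈ W
    rw [sub_add_cancel]
    refine ⟨mem_endChart_target P e q hq, ?_⟩
    rw [mem_preimage, endChart_symm_apply]
    exact hq
  · exact (((P.end_smooth e).comp (S.T.contDiff.comp_contDiffOn
      (hσs.comp (by fun_prop : ContDiff ℝ ∞ fun z : E3 => z + vert a).contDiffOn fun z hz => hz))
      fun z hz => S.mem _ hz.2).sub contDiffOn_const)
  · simp only [sub_add_cancel, hσ, endChart_symm_apply]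
  refine ⟨⟨σ.symm (z + vert a), hz.2, σ.right_inv hz.1, (sub_add_cancel _ _).symm⟩, fun u w => ?_⟩
  set r := σ.symm (z + vert a)
  set D := fderiv ℝ σ.symm (z + vert a)
  have h1 : HasFDerivAt σ.symm D (z + vert a) :=
    ((hσs.contDiffAt (hW.mem_nhds hz)).differentiableAt (by simp)).hasFDerivAt
  have he : ∀ p ∈ collarSet, HasFDerivAt (P.endMap e) (fderiv ℝ (P.endMap e) p) p := fun p hp =>
    (((P.end_smooth e).contDiffAt (isOpen_collarSet.mem_nhds hp)).differentiableAt
      (by simp)).hasFDerivAt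
  have hid : (fderiv ℝ (P.endMap e) r).comp D = ContinuousLinearMap.id ℝ E3 := by
    refine ((he r hz.2).comp (z + vert a) h1).unique ((hasFDerivAt_id _).congr_of_eventuallyEq ?_)
    filter_upwards [σ.open_target.mem_nhds hz.1] with p hp
    exact σ.right_inv hp
  have hφ : HasFDerivAt (fun z => P.endMap e (S.T (σ.symm (z + vert a))) - vert a')
      ((fderiv ℝ (P.endMap e) (S.T r)).comp (S.T.comp D)) z :=
    ((he _ (S.mem _ hz.2)).comp z
      (S.T.hasFDerivAt.comp z ((hasFDerivAt_comp_add_right (f := σ.symm) (vert a)).2 h1))).sub_const _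
  rw [hφ.fderiv]
  show P.metric (P.endMap e (S.T r) - vert a') (fderiv ℝ (P.endMap e) (S.T r) (S.T (D u)))
    (fderiv ℝ (P.endMap e) (S.T r) (S.T (D w))) = _
  rw [show P.endMap e (S.T r) - vert a' = P.endMap e (S.T r) + (0, 0, ((-a' : ℤ) : ℝ)) by
    rw [sub_eq_add_neg, ← vert_neg]; rfl, metric_add_vert,
    P.end_pull e _ (S.mem _ hz.2), S.isom _ hz.2, ← P.end_pull e _ hz.2]
  have hu : ∀ v, fderiv ℝ (P.endMap e) r (D v) = v := fun v => congrArg (· v) hid
  rw [hu, hu, show P.endMap e r = z + vert a from σ.right_inv hz.1]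
  exact congrArg (fun B : E3 →L[ℝ] E3 →L[ℝ] ℝ => B u w) (metric_add_vert P z _)

/-- The two coordinates of a glued point. -/
def Glued (y₀ y₁ : E3) : Prop :=
  ∃ e, ∃ q ∈ collarSet, ∃ l l' : ℤ,
    P.endMap e q = y₀ + vert l ∧ P.endMap e (latTurn q) = y₁ + vert l'

theorem planar_time {e e' : Fin N} {q q' : E3} (hq : q ∈ collarSet) (hq' : q' ∈ collarSet)
    (h : planar (P.endMap e q) = planar (P.endMap e' q')) :
    e' = e ∧ ∃ s : ℝ, P.endMap e q' = P.endMap e (q + (0, s, 0)) ∧ q'.1 = q.1 := by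
  have he : e' = e := by
    by_contra hne
    exact P.end_disjoint e e' (fun h => hne h.symm) q hq q' hq' h
  subst he
  refine ⟨rfl, (P.endMap e' q').2.2 - (P.endMap e' q).2.2, ?_⟩
  set s := (P.endMap e' q').2.2 - (P.endMap e' q).2.2
  have h1 : P.endMap e' q' = P.endMap e' (q + (0, s, 0)) := by
    rw [P.end_fiber _ q hq]
    simp only [planar, Prod.mk.injEq] at h
    refine Prod.ext ?_ (Prod.ext ?_ ?_) <;> simp [h.1, h.2, s]
  refine ⟨h1, ?_⟩
  obtain ⟨i, j, hij⟩ := P.end_inj e' _ (add_fib_mem hq s) q' hq' 0 (by rw [h1]; simp)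
  rw [hij]
  simp [latShift]

/-- Lifts of vertically equal end points differ by the lattice; so do their images by a symmetry. -/
theorem end_transfer (S : LatSym N) {e e' : Fin N} {q q' : E3} (hq : q ∈ collarSet)
    (hq' : q' ∈ collarSet) {l : ℤ} (h : P.endMap e' q' = P.endMap e q + vert l) :
    e' = e ∧ ∃ l' : ℤ, P.endMap e (S.T q') = P.endMap e (S.T q) + vert l' := by
  obtain ⟨rfl, -⟩ := planar_time P hq hq' (e := e) (e' := e')
    (by rw [h]; exact (planar_add_vert _ _).symm)
  refine ⟨rfl, ?_⟩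
  obtain ⟨i, j, hij⟩ := P.end_inj _ q hq q' hq' l h
  obtain ⟨i', j', hs⟩ := S.shift q i j
  exact ⟨i' + euler e' * j', by rw [hij, hs, P.end_shift _ _ (S.mem q hq)]; rfl⟩

/-- The relation of the glued manifold. -/
def gRel (x y : Bool × E3) : Prop :=
  x.2 ∈ P.dom3 ∧ y.2 ∈ P.dom3 ∧ ((x.1 = y.1 ∧ ∃ l : ℤ, y.2 = x.2 + vert l) ∨
    (x.1 ≠ y.1 ∧ Glued P (if x.1 then y.2 else x.2) (if x.1 then x.2 else y.2)))

theorem glued_add {y₀ y₁ : E3} (h : Glued P y₀ y₁) (a b : ℤ) :
    Glued P (y₀ + vert a) (y₁ + vert b) := by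
  obtain ⟨e, q, hq, l, l', h0, h1⟩ := h
  refine ⟨e, q, hq, l - a, l' - b, ?_, ?_⟩
  · rw [h0, vert_sub]; abel
  · rw [h1, vert_sub]; abel

theorem glued_right (hC : CollarGood N) {y₀ y₁ y₁' : E3} (h : Glued P y₀ y₁)
    (h' : Glued P y₀ y₁') : ∃ l : ℤ, y₁' = y₁ + vert l := by
  obtain ⟨e, q, hq, l, l', h0, h1⟩ := h
  obtain ⟨e', q', hq', m, m', h0', h1'⟩ := h'
  obtain ⟨rfl, k, hk⟩ := end_transfer P (turnSym hC) hq hq' (e := e) (e' := e') (l := m - l)
    (by rw [h0', h0, vert_sub]; abel)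
  refine ⟨l' + k - m', ?_⟩
  have : P.endMap e' (latTurn q') = P.endMap e' (latTurn q) + vert k := hk
  rw [h1', h1] at this
  rw [vert_sub, vert_add, eq_sub_of_add_eq this]
  abel

theorem glued_left (hC : CollarGood N) {y₀ y₀' y₁ : E3} (h : Glued P y₀ y₁)
    (h' : Glued P y₀' y₁) : ∃ l : ℤ, y₀' = y₀ + vert l := by
  obtain ⟨e, q, hq, l, l', h0, h1⟩ := h
  obtain ⟨e', q', hq', m, m', h0', h1'⟩ := h'
  obtain ⟨rfl, k, hk⟩ := end_transfer P (backSym hC) (latTurn_mem hq) (latTurn_mem hq') (e := e)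
    (e' := e') (l := m' - l') (by rw [h1', h1, vert_sub]; abel)
  have : P.endMap e' q' = P.endMap e' q + vert k := by
    simpa [backSym, latBack_turn] using hk
  refine ⟨l + k - m, ?_⟩
  rw [h0', h0] at this
  rw [vert_sub, vert_add, eq_sub_of_add_eq this]
  abel

theorem gRel_symm {x y : Bool × E3} (h : gRel P x y) : gRel P y x := by
  obtain ⟨hx, hy, ⟨hb, l, hl⟩ | ⟨hb, hg⟩⟩ := h
  · exact ⟨hy, hx, .inl ⟨hb.symm, -l, by rw [hl, vert_neg]; abel⟩⟩
  · refine ⟨hy, hx, .inr ⟨Ne.symm hb, ?_⟩⟩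
    obtain ⟨b, y₀⟩ := x
    obtain ⟨c, y₁⟩ := y
    cases b <;> cases c <;> simp_all

theorem gRel_trans (hC : CollarGood N) {x y z : Bool × E3} (h : gRel P x y) (h' : gRel P y z) :
    gRel P x z := by
  obtain ⟨b, u⟩ := x
  obtain ⟨c, v⟩ := y
  obtain ⟨d, w⟩ := z
  obtain ⟨hu, hv, h⟩ := h
  obtain ⟨-, hw, h'⟩ := h'
  refine ⟨hu, hw, ?_⟩
  rcases h with ⟨hb, l, hl⟩ | ⟨hb, hg⟩ <;> rcases h' with ⟨hb', l', hl'⟩ | ⟨hb', hg'⟩
  · exact .inl ⟨hb.trans hb', l + l', by simp only at hl hl' ⊢; rw [hl', hl, vert_add]; abel⟩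
  · simp only at hb hb' hl
    subst hb
    refine .inr ⟨hb', ?_⟩
    have hu' : u = v + vert (-l) := by rw [hl, vert_neg]; abel
    have hz0 : ∀ y : E3, y + vert 0 = y := fun y => by simp [vert]
    cases b <;> cases d <;> simp only [ne_eq, not_true_eq_false] at hb' <;>
      simp only [Bool.false_eq_true, if_false, if_true] at hg' ⊢ <;> rw [hu']
    · have h0 := glued_add P hg' (-l) 0
      rwa [hz0] at h0
    · have h0 := glued_add P hg' 0 (-l)
      rwa [hz0] at h0
  · simp only at hb hb' hl'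
    subst hb'
    refine .inr ⟨hb, ?_⟩
    have hz0 : ∀ y : E3, y + vert 0 = y := fun y => by simp [vert]
    cases b <;> cases c <;> simp only [ne_eq, not_true_eq_false] at hb <;>
      simp only [Bool.false_eq_true, if_false, if_true] at hg ⊢ <;> rw [hl']
    · have h0 := glued_add P hg 0 l'
      rwa [hz0] at h0
    · have h0 := glued_add P hg l' 0
      rwa [hz0] at h0
  · left
    cases b <;> cases c <;> cases d <;> simp_all
    · exact glued_left P hC hg hg'
    · exact glued_right P hC hg hg'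

/-- The data of the quotient. -/
def qdata (hC : CollarGood N) : QData where
  U := P.dom3
  isOpen := isOpen_dom3 P
  y₀ := (P.z₀.1, P.z₀.2, 0)
  y₀_mem := P.z₀_mem
  G := P.metric
  isMetric := P.isMetric
  Rel := gRel P
  refl' b y hy := ⟨hy, hy, .inl ⟨rfl, 0, by simp [vert]⟩⟩
  symm' := gRel_symm P
  trans' := gRel_trans P hC
  mem h := ⟨h.1, h.2.1⟩
  sep b z z' h hd := by
    obtain ⟨-, -, ⟨-, l, hl⟩ | ⟨hb, -⟩⟩ := h
    · simp only at hl
      subst hl
      have h1 : |(l : ℝ)| < 1 := by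
        have h2 : ‖z - (z + vert l)‖ < 1 := by rwa [← dist_eq_norm]
        rw [sub_add_cancel_left, norm_neg] at h2
        refine lt_of_le_of_lt ?_ h2
        rw [← Real.norm_eq_abs]
        exact le_trans (norm_snd_le ((vert l).2)) (norm_snd_le (vert l))
      have : l = 0 := by
        rw [← Int.cast_abs, ← Int.cast_one, Int.cast_lt] at h1
        exact Int.abs_lt_one_iff.1 h1
      simp [this, vert]
    · exact absurd rfl hb
  move {x y} h := by
    obtain ⟨b, u⟩ := x
    obtain ⟨c, v⟩ := y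
    obtain ⟨hu, hv, ⟨hb, l, hl⟩ | ⟨hb, hg⟩⟩ := h
    · simp only at hb hl hu hv
      subst hb hl
      refine ⟨fun z => z + vert l, P.dom3, isOpen_dom3 P, hu, by fun_prop, rfl,
        fun z hz => ⟨⟨hz, add_vert_mem P hz _, .inl ⟨rfl, l, rfl⟩⟩, fun a w => ?_⟩⟩
      rw [fderiv_add_const, fderiv_fun_id]
      exact congrArg (fun B : E3 →L[ℝ] E3 →L[ℝ] ℝ => B a w) (metric_add_vert P z _)
    · cases b <;> cases c <;> simp only [ne_eq, not_true_eq_false] at hb <;>
        simp only [Bool.false_eq_true, if_false, if_true] at hg <;>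
        obtain ⟨e, q, hq, l, l', h0, h1⟩ := hg
      · obtain ⟨φ, V, hV, hqV, hφ, hφq, hr⟩ := exists_move P (turnSym hC) e hq l l'
        rw [show P.endMap e q - vert l = u by rw [h0]; abel,
          show P.endMap e ((turnSym hC).T q) - vert l' = v by
            rw [show P.endMap e ((turnSym hC).T q) = _ from h1]; abel] at *
        refine ⟨φ, V ∩ P.dom3, hV.inter (isOpen_dom3 P), ⟨hqV, hu⟩,
          hφ.mono inter_subset_left, hφq, fun z hz => ⟨?_, (hr z hz.1).2⟩⟩
        obtain ⟨r, hr0, e0, e1⟩ := (hr z hz.1).1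
        have hφz : φ z ∈ P.dom3 := by
          have h' := add_vert_mem P (endMap_mem P e ((turnSym hC).mem r hr0)) (-(l' : ℝ))
          rw [e1] at h'
          convert h' using 1
          simp [vert, add_assoc]
        exact ⟨hz.2, hφz, .inr ⟨by simp, e, r, hr0, l, l', e0, e1⟩⟩
      · obtain ⟨φ, V, hV, hqV, hφ, hφq, hr⟩ := exists_move P (backSym hC) e (latTurn_mem hq) l' l
        rw [show P.endMap e (latTurn q) - vert l' = u by rw [h1]; abel,
          show P.endMap e ((backSym hC).T (latTurn q)) - vert l = v by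
            rw [show (backSym hC).T (latTurn q) = q from latBack_turn q, h0]; abel] at *
        refine ⟨φ, V ∩ P.dom3, hV.inter (isOpen_dom3 P), ⟨hqV, hu⟩,
          hφ.mono inter_subset_left, hφq, fun z hz => ⟨?_, (hr z hz.1).2⟩⟩
        obtain ⟨r, hr0, e0, e1⟩ := (hr z hz.1).1
        have hφz : φ z ∈ P.dom3 := by
          have h' := add_vert_mem P (endMap_mem P e ((backSym hC).mem r hr0)) (-(l : ℝ))
          rw [e1] at h'
          convert h' using 1
          simp [vert, add_assoc]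
        refine ⟨hz.2, hφz, .inr ⟨by simp, e, latBack r, latBack_mem hr0, l, l', ?_, ?_⟩⟩
        · exact e1
        · rw [latTurn_back]; exact e0

/-- A pair over the outer half of an end, in the limit. -/
theorem closed_side (S : LatSym N) (e : Fin N) {p : E3 × E3} (h2 : p.2 ∈ P.dom3)
    (hp : p ∈ closure {p : E3 × E3 | ∃ r ∈ collarSet, 0 ≤ r.1 ∧ ∃ l l' : ℤ,
      P.endMap e r = p.2 + vert l ∧ P.endMap e (S.T r) = p.1 + vert l'}) :
    ∃ r ∈ collarSet, ∃ l l' : ℤ,
      P.endMap e r = p.2 + vert l ∧ P.endMap e (S.T r) = p.1 + vert l' := by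
  set A := {p : E3 × E3 | ∃ r ∈ collarSet, 0 ≤ r.1 ∧ ∃ l l' : ℤ,
      P.endMap e r = p.2 + vert l ∧ P.endMap e (S.T r) = p.1 + vert l'}
  have hz : planar p.2 ∈ closure ((fun q => planar (P.endMap e q)) '' {q ∈ collarSet | 0 ≤ q.1}) := by
    refine map_mem_closure (f := fun p : E3 × E3 => planar p.2)
      (continuous_planar.comp continuous_snd) hp ?_
    rintro x ⟨r, hr, hr0, l, l', e0, -⟩
    exact ⟨r, ⟨hr, hr0⟩, by show planar (P.endMap e r) = planar x.2; rw [e0]; exact planar_add_vert _ _⟩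
  obtain ⟨q₀, hq₀, hq₀p⟩ := P.end_closed e (planar p.2) h2 hz
  set q := q₀ + (0, p.2.2.2 - (P.endMap e q₀).2.2, 0) with hqdef
  have hq : q ∈ collarSet := add_fib_mem hq₀ _
  have hqp : P.endMap e q = p.2 := by
    rw [hqdef, P.end_fiber e q₀ hq₀]
    simp only [planar, Prod.mk.injEq] at hq₀p
    refine Prod.ext ?_ (Prod.ext ?_ ?_) <;> simp [hq₀p.1, hq₀p.2]
  set σ := endChart P e q hq
  set W : Set E3 := σ.target ∩ σ.symm ⁻¹' collarSet
  have hpW : p.2 ∈ W := by
    rw [← hqp]
    exact ⟨mem_endChart_target P e q hq, by rw [mem_preimage, endChart_symm_apply]; exact hq⟩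
  have hW : IsOpen W := σ.isOpen_inter_preimage_symm isOpen_collarSet
  set d : E3 × E3 → E3 := fun x => x.1 - P.endMap e (S.T (σ.symm x.2))
  have hd : ContinuousAt d p := by
    refine continuousAt_fst.sub ?_
    have h1 : ContinuousAt (fun x : E3 × E3 => σ.symm x.2) p :=
      (σ.continuousAt_symm hpW.1).comp continuousAt_snd
    exact (((P.end_smooth e).continuousOn.continuousAt
      (isOpen_collarSet.mem_nhds (S.mem _ hpW.2)))).comp (f := fun x : E3 × E3 => S.T (σ.symm x.2))
        (S.T.continuous.continuousAt.comp h1)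
  have hev : ∀ᶠ x in 𝓝[A] p, d x ∈ range vert := by
    filter_upwards [self_mem_nhdsWithin, nhdsWithin_le_nhds
      ((hW.preimage continuous_snd).mem_nhds hpW)] with x hx hxW
    obtain ⟨r, hr, -, l, l', e0, e1⟩ := hx
    have hs : P.endMap e (σ.symm x.2) = x.2 := σ.right_inv hxW.1
    obtain ⟨-, k, hk⟩ := end_transfer P S hxW.2 hr (e := e) (e' := e) (l := l)
      (by rw [e0, hs])
    rw [e1] at hk
    exact ⟨k - l', by rw [vert_sub]; simp only [d]; rw [eq_sub_of_add_eq hk]; abel⟩
  have : (𝓝[A] p).NeBot := mem_closure_iff_nhdsWithin_neBot.1 hp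
  obtain ⟨k, hk⟩ := isClosed_range_vert.mem_of_tendsto (hd.mono_left nhdsWithin_le_nhds) hev
  have hs : σ.symm p.2 = q := by rw [← hqp]; exact endChart_symm_apply P e q hq
  refine ⟨q, hq, 0, -k, by simp [hqp, vert], ?_⟩
  simp only [d, hs] at hk
  rw [vert_neg, hk]
  abel

theorem closed_glued (hC : CollarGood N) {p : E3 × E3} (h0 : p.1 ∈ P.dom3) (h1 : p.2 ∈ P.dom3)
    (hp : p ∈ closure {p : E3 × E3 | Glued P p.1 p.2}) : Glued P p.1 p.2 := by
  set A : Fin N → Set (E3 × E3) := fun e => {p : E3 × E3 | ∃ r ∈ collarSet, 0 ≤ r.1 ∧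
    ∃ l l' : ℤ, P.endMap e r = p.2 + vert l ∧ P.endMap e (latBack r) = p.1 + vert l'}
  set B : Fin N → Set (E3 × E3) := fun e => {p : E3 × E3 | ∃ r ∈ collarSet, 0 ≤ r.1 ∧
    ∃ l l' : ℤ, P.endMap e r = p.2 + vert l ∧ P.endMap e (latTurn r) = p.1 + vert l'}
  have hsub : {p : E3 × E3 | Glued P p.1 p.2} ⊆ (⋃ e, A e) ∪ Prod.swap ⁻¹' (⋃ e, B e) := by
    rintro x ⟨e, q, hq, l, l', e0, e1⟩
    rcases le_total 0 q.1 with h | h
    · exact .inr (mem_iUnion.2 ⟨e, q, hq, h, l, l', e0, e1⟩)
    · refine .inl (mem_iUnion.2 ⟨e, latTurn q, latTurn_mem hq, by rw [latTurn_fst]; linarith,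
        l', l, e1, by rw [latBack_turn]; exact e0⟩)
  have := closure_mono hsub hp
  rw [closure_union, closure_iUnion_of_finite] at this
  rcases this with h | h
  · obtain ⟨e, he⟩ := mem_iUnion.1 h
    obtain ⟨r, hr, l, l', e0, e1⟩ := closed_side P (backSym hC) e h1 he
    exact ⟨e, latBack r, latBack_mem hr, l', l, e1, by rw [latTurn_back]; exact e0⟩
  · have h' : p.swap ∈ closure (⋃ e, B e) := map_mem_closure continuous_swap h fun x hx => hx
    rw [closure_iUnion_of_finite] at h'
    obtain ⟨e, he⟩ := mem_iUnion.1 h'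
    obtain ⟨r, hr, l, l', e0, e1⟩ := closed_side P (turnSym hC) e (p := p.swap) h0 he
    exact ⟨e, r, hr, l, l', e0, e1⟩

theorem t2Space_model (hC : CollarGood N) : T2Space (qdata P hC).Carrier := by
  rw [t2Space_iff_of_isOpenQuotientMap (qdata P hC).isOpenQuotientMap_cls]
  refine isClosed_of_closure_subset fun x hx => ?_
  obtain ⟨⟨b, u⟩, c, v⟩ := x
  refine (qdata P hC).cls_eq_cls.2 ?_
  set A : Set (E3 × E3) := {p | gRel P (b, p.1) (c, p.2)}
  have hA : (u.1, v.1) ∈ closure A := by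
    rw [mem_closure_iff]
    intro O hO hm
    obtain ⟨⟨⟨b', u'⟩, c', v'⟩, ⟨⟨rfl, rfl⟩, hO'⟩, hrel⟩ := mem_closure_iff.1 hx
      {x | (x.1.1 = b ∧ x.2.1 = c) ∧ (x.1.2.1, x.2.2.1) ∈ O}
      ((((isOpen_discrete {b}).preimage (continuous_fst.comp continuous_fst)).inter
        ((isOpen_discrete {c}).preimage (continuous_fst.comp continuous_snd))).inter
          (hO.preimage (by fun_prop))) ⟨⟨rfl, rfl⟩, hm⟩
    exact ⟨(u'.1, v'.1), hO', (qdata P hC).cls_eq_cls.1 hrel⟩
  refine ⟨u.2, v.2, ?_⟩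
  rcases eq_or_ne b c with hbc | hbc
  · refine .inl ⟨hbc, ?_⟩
    have h := map_mem_closure (f := fun p : E3 × E3 => p.2 - p.1) (t := range vert) (by fun_prop)
      hA fun p hp => by
        obtain ⟨-, -, ⟨-, l, hl⟩ | ⟨hne, -⟩⟩ := hp
        · exact ⟨l, by simp only at hl ⊢; rw [hl]; abel⟩
        · exact absurd hbc hne
    rw [isClosed_range_vert.closure_eq] at h
    obtain ⟨l, hl⟩ := h
    exact ⟨l, by simp only at hl ⊢; rw [hl]; abel⟩
  · refine .inr ⟨hbc, ?_⟩
    cases b <;> cases c <;> simp only [ne_eq, not_true_eq_false] at hbc <;>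
      simp only [Bool.false_eq_true, if_false, if_true]
    · refine closed_glued P hC (p := (u.1, v.1)) u.2 v.2 (closure_mono (fun p hp => ?_) hA)
      obtain ⟨-, -, ⟨hb, -⟩ | ⟨-, hg⟩⟩ := hp
      · simp at hb
      · simpa using hg
    · refine closed_glued P hC (p := (v.1, u.1)) v.2 u.2
        (map_mem_closure (f := Prod.swap) (x := (u.1, v.1)) continuous_swap hA fun p hp => ?_)
      obtain ⟨-, -, ⟨hb, -⟩ | ⟨-, hg⟩⟩ := hp
      · simp at hb
      · simpa using hg

theorem compactSpace_model (hC : CollarGood N) : CompactSpace (qdata P hC).Carrier := by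
  set D := qdata P hC
  set K := {z ∈ P.dom | ∀ e, ∀ q ∈ collarSet,
    ((P.endMap e q).1, (P.endMap e q).2.1) = z → q.1 ≤ 0} with hKdef
  set C : Set E3 := (fun p : (ℝ × ℝ) × ℝ => ((p.1.1, p.1.2, p.2) : E3)) '' (K ×ˢ Icc (0 : ℝ) 1)
  have hC' : IsCompact C := (P.core_compact.prod isCompact_Icc).image (by fun_prop)
  have hCU : C ⊆ P.dom3 := by
    rintro _ ⟨p, hp, rfl⟩
    exact hp.1.1
  have key : ∀ (b : Bool) (y : E3), y ∈ P.dom3 → planar y ∈ K → D.proj b y ∈ D.proj b '' C := by
    intro b y hy hK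
    refine ⟨y + vert (-⌊y.2.2⌋), ⟨(planar y, Int.fract y.2.2),
      ⟨hK, Int.fract_nonneg _, (Int.fract_lt_one _).le⟩, ?_⟩, ?_⟩
    · simp [vert, planar, Int.fract, sub_eq_add_neg, Prod.ext_iff]
    · exact ((D.proj_eq_proj hy (add_vert_mem P hy _)).2
        ⟨hy, add_vert_mem P hy _, .inl ⟨rfl, _, rfl⟩⟩).symm
  refine ⟨?_⟩
  have hu : (univ : Set D.Carrier) = D.proj false '' C ∪ D.proj true '' C := by
    refine (eq_univ_of_forall fun m => ?_).symm
    obtain ⟨⟨b, y⟩, rfl⟩ := D.cls_surjective m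
    rw [← D.proj_apply y.2]
    by_cases hK : planar y.1 ∈ K
    · cases b
      · exact .inl (key _ _ y.2 hK)
      · exact .inr (key _ _ y.2 hK)
    · have h' : ∃ e, ∃ q ∈ collarSet, planar (P.endMap e q) = planar y.1 ∧ 0 < q.1 := by
        simp only [hKdef, mem_ofPred_eq, not_and, not_forall, not_le] at hK
        obtain ⟨e, q, hq, h, h0⟩ := hK y.2
        exact ⟨e, q, hq, h, h0⟩
      obtain ⟨e, q₀, hq₀, hp, h0⟩ := h'
      set q := q₀ + (0, y.1.2.2 - (P.endMap e q₀).2.2, 0) with hqdef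
      have hq : q ∈ collarSet := add_fib_mem hq₀ _
      have hqy : P.endMap e q = y.1 := by
        rw [hqdef, P.end_fiber e q₀ hq₀]
        simp only [planar, Prod.mk.injEq] at hp
        refine Prod.ext ?_ (Prod.ext ?_ ?_) <;> simp [hp.1, hp.2]
      have hqt : 0 < q.1 := by simpa [hqdef] using h0
      have inK : ∀ r ∈ collarSet, r.1 < 0 → planar (P.endMap e r) ∈ K := fun r hr hr0 =>
        ⟨endMap_mem P e hr, fun e' q' hq' h => by
          obtain ⟨-, s, -, ht⟩ := planar_time P hr hq' h.symm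
          linarith⟩
      cases b
      · right
        have hr := latTurn_mem hq
        rw [← hqy, (D.proj_eq_proj (b' := true) (endMap_mem P e hq) (endMap_mem P e hr)).2
          ⟨endMap_mem P e hq, endMap_mem P e hr, .inr ⟨by simp, e, q, hq, 0, 0,
            by simp [vert], by simp [vert]⟩⟩]
        exact key _ _ (endMap_mem P e hr) (inK _ hr (by rw [latTurn_fst]; linarith))
      · left
        have hr := latBack_mem hq
        rw [← hqy, (D.proj_eq_proj (b' := false) (endMap_mem P e hq) (endMap_mem P e hr)).2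
          ⟨endMap_mem P e hq, endMap_mem P e hr, .inr ⟨by simp, e, latBack q, hr, 0, 0,
            by simp [vert], by simp [vert, latTurn_back]⟩⟩]
        exact key _ _ (endMap_mem P e hr) (inK _ hr (by rw [latBack_fst]; linarith))
  rw [hu]
  exact (hC'.image_of_continuousOn ((D.continuousOn_proj _).mono hCU)).union
    (hC'.image_of_continuousOn ((D.continuousOn_proj _).mono hCU))

theorem pathConnectedSpace_model (hN : 0 < N) (hC : CollarGood N) :
    PathConnectedSpace (qdata P hC).Carrier := by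
  set D := qdata P hC
  have hU : IsPathConnected P.dom3 := by
    have h := (P.conn_dom.prod (isPathConnected_univ (X := ℝ))).image
      (by fun_prop : Continuous fun p : (ℝ × ℝ) × ℝ => ((p.1.1, p.1.2, p.2) : E3))
    convert h using 1
    ext y
    constructor
    · exact fun hy => ⟨((y.1, y.2.1), y.2.2), ⟨hy, trivial⟩, rfl⟩
    · rintro ⟨p, hp, rfl⟩
      exact hp.1
  have hb : ∀ b, IsPathConnected (D.proj b '' P.dom3) := fun b => hU.image' (D.continuousOn_proj b)
  have h0 : (0 : E3) ∈ collarSet := by simp [collarSet]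
  set e : Fin N := ⟨0, hN⟩
  have hmeet : (D.proj false '' P.dom3 ∩ D.proj true '' P.dom3).Nonempty := by
    refine ⟨D.proj false (P.endMap e 0), ⟨_, endMap_mem P e h0, rfl⟩, P.endMap e (latTurn 0),
      endMap_mem P e (latTurn_mem h0), ?_⟩
    exact ((D.proj_eq_proj (endMap_mem P e h0) (endMap_mem P e (latTurn_mem h0))).2
      ⟨endMap_mem P e h0, endMap_mem P e (latTurn_mem h0),
        .inr ⟨by simp, e, 0, h0, 0, 0, by simp [vert], by simp [vert]⟩⟩).symm
  have h := (hb false).union (hb true) hmeet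
  rw [show D.proj false '' P.dom3 ∪ D.proj true '' P.dom3 = univ from
    eq_univ_of_forall fun m => by
      obtain ⟨⟨b, y⟩, rfl⟩ := D.cls_surjective m
      rw [← D.proj_apply y.2]
      cases b
      · exact .inl ⟨_, y.2, rfl⟩
      · exact .inr ⟨_, y.2, rfl⟩] at h
  exact pathConnectedSpace_iff_univ.2 h

theorem exists_model {N : ℕ} (hN : 2 ≤ N) (hC : CollarGood N) (P : Piece N) :
    Nonempty (Model P) := by
  let D := qdata P hC
  have := t2Space_model P hC
  have := compactSpace_model P hC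
  have := pathConnectedSpace_model P (by omega) hC
  exact ⟨{
    M := D.Carrier
    proj := D.proj
    proj_smooth := D.contMDiffOn_proj
    proj_inv := fun b y hy => D.bijective_mfderiv_proj b hy
    proj_surj := fun m => by
      obtain ⟨⟨b, y⟩, rfl⟩ := D.cls_surjective m
      exact ⟨b, y.1, y.2, D.proj_apply y.2⟩
    proj_shift := fun b y hy l => ((D.proj_eq_proj hy (add_vert_mem P hy _)).2
      ⟨hy, add_vert_mem P hy _, .inl ⟨rfl, l, rfl⟩⟩).symm
    proj_glue := fun e q hq => ((D.proj_eq_proj (endMap_mem P e hq)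
      (endMap_mem P e (latTurn_mem hq))).2 ⟨endMap_mem P e hq, endMap_mem P e (latTurn_mem hq),
        .inr ⟨by simp, e, q, hq, 0, 0, by simp [vert], by simp [vert]⟩⟩).symm
    proj_eq := fun b b' y hy y' hy' h => ((D.proj_eq_proj hy hy').1 h).2.2
    g := D.metric
    proj_pull := fun b y hy u w => D.metric_pull b hy u w }⟩

end

end Vale.Agent.P255.Glue
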