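import Vale.Agent.P255.Glue.Cover
import Vale.Agent.P255.Cat

/-!
The relations in the fundamental group of a model.
-/

open Set

namespace Vale.Agent.P255

noncomputable section

open Loops

variable {N : ℕ} {P : Piece N} (Q : Model P)

lemma Model.torus_glue (e : Fin N) (a u : ℝ) :
    Q.torus false e (a, u) = Q.torus true e (u, -a) := by
  have h := Q.proj_glue e (0, a, u) (mem_middle a u)
  simp only [latTurn_apply, neg_zero] at h
  exact h.symm

lemma Model.loopB_false (e : Fin N) : Q.loopB false e = Q.loopA true e := by
  refine seg_congr _ _ _ _ _ _ _ _ _ _ fun s => ?_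
  simp only [Prod.mk_sub_mk, sub_zero, Prod.smul_mk, smul_eq_mul, mul_one, mul_zero,
    Prod.mk_add_mk, zero_add]
  rw [Q.torus_glue, neg_zero]

lemma Model.loopA_false (e : Fin N) : Q.loopA false e = (Q.loopB true e).symm := by
  rw [Model.loopB, seg_symm]
  refine seg_congr _ _ _ _ _ _ _ _ _ _ fun s => ?_
  simp only [Prod.mk_sub_mk, sub_zero, zero_sub, Prod.smul_mk, smul_eq_mul, mul_one, mul_zero,
    Prod.mk_add_mk, zero_add, add_zero]
  rw [Q.torus_glue]
  have := Q.torus_periodic true e 0 (-(s : ℝ)) 0 1
  simp only [Int.cast_zero, Int.cast_one, add_zero] at this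
  rw [← this]
  congr 2
  ring

/-- Conjugation by a path, as a homomorphism. -/
def conjHom {X : Type*} [TopologicalSpace X] {o x : X} (w : Path.Homotopic.Quotient o x) :
    FundamentalGroup X x →* FundamentalGroup X o :=
  MonoidHom.mk' (fun γ => cj w γ.toPath) fun γ γ' => by
    rw [cj_mul]
    rfl

lemma sum_euler (hN : 2 ≤ N) : ∑ e : Fin N, euler e = 1 := by
  rw [Fintype.sum_eq_single (⟨0, by omega⟩ : Fin N)]
  · simp [euler]
  · intro e he
    simp only [euler]
    rw [if_neg]
    intro h
    exact he (Fin.ext h)

/-- The relations of the two copies in the fundamental group at the first base point. -/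
def Model.relations (hN : 2 ≤ N) : GraphRelations (FundamentalGroup Q.M (Q.base false)) :=
  let δ : Path.Homotopic.Quotient (Q.base false) (Q.base true) :=
    Path.Homotopic.Quotient.mk (PathConnectedSpace.somePath _ _)
  let W : (e : Fin N) → Path.Homotopic.Quotient (Q.base false) (Q.edgePt e) :=
    fun e => δ.trans (Q.whisker true e)
  have hf : ∀ e, Q.fib false = cj (Q.whisker false e) (Q.loopA false e) :=
    fun e => (Q.cj_loopA false e).symm
  have hf' : ∀ e, conjHom δ (Q.fib true) = cj (W e) (Q.loopA true e) := fun e => by
    rw [cj_trans, Q.cj_loopA]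
    rfl
  have hperm : List.Perm ((List.finRange N).map P.order) (List.finRange N) :=
    Equiv.Perm.map_finRange_perm P.order
  { N := N
    f := Q.fib false
    f' := conjHom δ (Q.fib true)
    h := fun e => cj (Q.whisker false e) (Q.loopB false e)
    h' := fun e => cj (W e) (Q.loopA false e)
    c := fun e => bridge (Q.whisker false e) (W e)
    k := euler
    k' := fun e => -euler e
    comm := fun e => by
      rw [hf e]
      exact cj_commute _ (Q.torus_comm false e)
    comm' := fun e => by
      rw [hf' e, ← Q.loopB_false e]
      exact cj_commute _ (Q.torus_comm false e).symm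
    conj_h := fun e => by
      rw [bridge_conj, hf' e, ← Q.loopB_false e]
    conj_f := fun e => by
      rw [hf e, bridge_conj]
    prod := ⟨_, hperm, by
      rw [List.map_map, ← Q.bloop_prod false]
      refine congrArg List.prod (List.map_congr_left fun i _ => ?_)
      show cj _ _ * _ = _
      rw [Q.cj_loopB false, ((Q.fib_comm_bloop false (P.order i)).zpow_left _).eq,
        mul_assoc, ← zpow_add, add_neg_cancel, zpow_zero, mul_one]⟩
    prod' := ⟨_, (List.reverse_perm _).trans hperm, by
      have key : ∀ i, cj (W i) (Q.loopA false i) * conjHom δ (Q.fib true) ^ (-(-euler i)) =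
          conjHom δ (Q.bloop true i)⁻¹ := fun i => by
        rw [Q.loopA_false, cj_symm, cj_trans, Q.cj_loopB true, neg_neg, ← map_zpow]
        change (conjHom δ _)⁻¹ * _ = _
        rw [← map_inv, ← map_mul, mul_inv_rev, mul_assoc, inv_mul_cancel, mul_one]
      simp only [key]
      rw [List.map_reverse, List.map_map,
        show ((fun i => conjHom δ (Q.bloop true i)⁻¹) ∘ P.order) =
          (conjHom δ) ∘ (fun g => g⁻¹) ∘ (fun i => Q.bloop true (P.order i)) from rfl,
        ← List.map_map, ← List.map_map, ← List.map_reverse, ← map_list_prod,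
        ← List.prod_inv_reverse, Q.bloop_prod, inv_one, map_one]⟩
    sum := by rw [sum_euler hN]; exact one_pos
    sum' := by rw [Finset.sum_neg_distrib, sum_euler hN]; norm_num
    ne := Q.fib_ne_one }

end

end Vale.Agent.P255
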