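import Vale.Agent.P255.Glue.Edge
import Vale.Agent.P255.Cover.Double

/-!
The fibre class of a copy is nontrivial: a double cover sees it.
-/

open Set Filter
open scoped Topology Real

namespace Vale.Agent.P255

noncomputable section

open Loops

variable {N : ℕ} {P : Piece N} (Q : Model P)

/-- The point of the circle at an angle counted in turns. -/
def circ (t : ℝ) : ℂ := Complex.exp ((2 * π * t : ℝ) * Complex.I)

lemma circ_add (a b : ℝ) : circ (a + b) = circ a * circ b := by
  rw [circ, circ, circ, ← Complex.exp_add]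
  push_cast
  ring_nf

lemma circ_int (l : ℤ) : circ (l : ℝ) = 1 := by
  rw [circ, ← Complex.exp_int_mul_two_pi_mul_I l]
  push_cast
  ring_nf

lemma continuous_circ : Continuous circ := by
  unfold circ
  fun_prop

lemma circ_ne_zero (t : ℝ) : circ t ≠ 0 := Complex.exp_ne_zero _

/-- The circle valued function of a copy, in coordinates. -/
def Piece.circMap (P : Piece N) (y : E3) : ℂ := circ y.2.2 * P.phase (y.1, y.2.1)

lemma Piece.circMap_shift (P : Piece N) (y : E3) (l : ℤ) :
    P.circMap (y + (0, 0, (l : ℝ))) = P.circMap y := by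
  rw [add_vert, Piece.circMap, Piece.circMap, circ_add, circ_int, mul_one]

lemma Piece.circMap_ne_zero (P : Piece N) {y : E3} (hy : y ∈ P.dom3) : P.circMap y ≠ 0 := by
  refine mul_ne_zero (circ_ne_zero _) fun h => ?_
  have := P.phase_norm _ hy
  rw [h, norm_zero] at this
  exact one_ne_zero this.symm

lemma Piece.continuousOn_circMap (P : Piece N) : ContinuousOn P.circMap P.dom3 :=
  (continuous_circ.comp (continuous_snd.comp continuous_snd)).continuousOn.mul
    (P.phase_cont.comp (continuous_fst.prodMk (continuous_fst.comp continuous_snd)).continuousOn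
      fun _ hy => hy)

/-- The circle valued function of a copy, on its image. -/
def Model.chartCirc (b : Bool) (x : Q.M) : ℂ :=
  P.circMap (Function.invFunOn (Q.proj b) P.dom3 x)

lemma Model.chartCirc_proj (b : Bool) {y : E3} (hy : y ∈ P.dom3) :
    Q.chartCirc b (Q.proj b y) = P.circMap y := by
  have hm : ∃ z ∈ P.dom3, Q.proj b z = Q.proj b y := ⟨y, hy, rfl⟩
  rcases Q.proj_eq b b y hy _ (Function.invFunOn_mem hm) (Function.invFunOn_eq hm).symm with
    ⟨-, l, hl⟩ | ⟨h, -⟩
  · rw [Model.chartCirc, hl, P.circMap_shift]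
  · exact absurd rfl h

lemma Model.continuousOn_chartCirc (b : Bool) :
    ContinuousOn (Q.chartCirc b) (Q.proj b '' P.dom3) :=
  continuousOn_image (fun _ hy => Q.map_proj_nhds b hy) P.isOpen_dom3
    (P.continuousOn_circMap.congr fun _ hy => Q.chartCirc_proj b hy)

lemma Model.chartCirc_ne_zero (b : Bool) : ∀ x ∈ Q.proj b '' P.dom3, Q.chartCirc b x ≠ 0 := by
  rintro _ ⟨y, hy, rfl⟩
  rw [Q.chartCirc_proj b hy]
  exact P.circMap_ne_zero hy

lemma latTurn_mem {q : E3} (hq : q ∈ collarSet) : latTurn q ∈ collarSet := by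
  simp only [collarSet, mem_ofPred_eq, latTurn_apply, mem_Ioo] at hq ⊢
  constructor <;> linarith [hq.1, hq.2]

lemma latTurn_shift (q : E3) (i j : ℤ) :
    latTurn (q + latShift i j) = latTurn q + latShift j (-i) := by
  simp [latTurn_apply, latShift, Prod.ext_iff]
  ring

lemma Piece.circMap_collar (P : Piece N) (e : Fin N) {ang : E3 → ℝ}
    (hang : ∀ q ∈ collarSet, P.phase ((P.endMap e q).1, (P.endMap e q).2.1) = circ (ang q))
    {q : E3} (hq : q ∈ collarSet) :
    P.circMap (P.endMap e q) = circ ((P.endMap e q).2.2 + ang q) := by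
  rw [Piece.circMap, hang q hq, circ_add]

lemma Model.overlap_subset :
    Q.proj false '' P.dom3 ∩ Q.proj true '' P.dom3 ⊆ ⋃ e, Q.collar e '' collarSet := by
  rintro _ ⟨⟨y, hy, rfl⟩, y', hy', h⟩
  rcases Q.proj_eq false true y hy y' hy' h.symm with ⟨h', -⟩ | ⟨-, e, q, hq, l, l', hl, -⟩
  · exact absurd h' (by decide)
  · refine mem_iUnion.2 ⟨e, q, hq, ?_⟩
    rw [Model.collar, hl]
    exact Q.proj_shift false y hy l

lemma Model.collar_edge_unique {e e' : Fin N} {q q' : E3} (hq : q ∈ collarSet)
    (hq' : q' ∈ collarSet) (h : Q.collar e q = Q.collar e' q') : e = e' := by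
  by_contra he
  rcases Q.proj_eq false false _ (P.endMap_mem e hq) _ (P.endMap_mem e' hq') h with ⟨-, l, hl⟩ | h'
  · apply P.end_disjoint e e' he q hq q' hq'
    rw [hl, add_vert]
  · exact absurd rfl h'.1

lemma Model.exists_root :
    ∃ s : Q.M → ℂ, ContinuousOn s (Q.proj false '' P.dom3 ∩ Q.proj true '' P.dom3) ∧
      ∀ x ∈ Q.proj false '' P.dom3 ∩ Q.proj true '' P.dom3,
        Q.chartCirc true x = s x ^ 2 * Q.chartCirc false x := by
  choose ang m hodd hcont hang hshift using P.phase_end
  set α : Fin N → E3 → ℝ := fun e q => (P.endMap e q).2.2 + ang e q with hα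
  set S : Fin N → E3 → ℂ := fun e q => circ ((α e (latTurn q) - α e q) / 2) with hS
  have hαs : ∀ e, ∀ q ∈ collarSet, ∀ i j : ℤ,
      α e (q + latShift i j) = α e q + ((i + (m e + euler e) * j : ℤ) : ℝ) := by
    intro e q hq i j
    simp only [hα]
    rw [P.end_shift e q hq, hshift e q hq, add_vert]
    push_cast
    ring
  have hSs : ∀ e, ∀ q ∈ collarSet, ∀ i j : ℤ, S e (q + latShift i j) = S e q := by
    intro e q hq i j
    obtain ⟨r, hr⟩ := hodd e
    simp only [hS]
    rw [latTurn_shift, hαs e _ (latTurn_mem hq), hαs e q hq, hr]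
    rw [show (α e (latTurn q) + ((j + (2 * r + 1) * -i : ℤ) : ℝ) -
        (α e q + ((i + (2 * r + 1) * j : ℤ) : ℝ))) / 2 =
        (α e (latTurn q) - α e q) / 2 + ((-(r + 1) * i - r * j : ℤ) : ℝ) by push_cast; ring,
      circ_add, circ_int, mul_one]
  classical
  set s : Q.M → ℂ := fun x =>
    if h : ∃ p : Fin N × E3, p.2 ∈ collarSet ∧ Q.collar p.1 p.2 = x then S h.choose.1 h.choose.2
    else 1 with hs
  have hval : ∀ e, ∀ q ∈ collarSet, s (Q.collar e q) = S e q := by
    intro e q hq
    have h : ∃ p : Fin N × E3, p.2 ∈ collarSet ∧ Q.collar p.1 p.2 = Q.collar e q :=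
      ⟨(e, q), hq, rfl⟩
    simp only [hs, dif_pos h]
    obtain ⟨h1, h2⟩ := h.choose_spec
    obtain he := Q.collar_edge_unique h1 hq h2
    rw [he] at h2 ⊢
    obtain ⟨i, j, hij⟩ := (Q.collar_eq_iff e hq h1).1 h2.symm
    rw [hij, hSs e q hq]
  have hopen : ∀ e, IsOpen (Q.collar e '' collarSet) := fun e =>
    isOpen_image_of_map_nhds (fun _ hq => Q.map_collar_nhds e hq) isOpen_collarSet
  have hαc : ∀ e, ContinuousOn (α e) collarSet := fun e =>
    ((continuous_snd.comp continuous_snd).comp_continuousOn (P.end_smooth e).continuousOn).add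
      (hcont e)
  refine ⟨s, fun x hx => ?_, fun x hx => ?_⟩
  · obtain ⟨e, he⟩ := mem_iUnion.1 (Q.overlap_subset hx)
    refine ((continuousOn_image (fun _ hq => Q.map_collar_nhds e hq) isOpen_collarSet
      (ContinuousOn.congr ?_ fun q hq => hval e q hq)).continuousAt
        ((hopen e).mem_nhds he)).continuousWithinAt
    exact continuous_circ.comp_continuousOn
      ((((hαc e).comp latTurn.continuous.continuousOn fun _ hq => latTurn_mem hq).sub
        (hαc e)).div_const 2)
  · obtain ⟨e, q, hq, rfl⟩ := mem_iUnion.1 (Q.overlap_subset hx)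
    rw [hval e q hq]
    have h0 : Q.chartCirc false (Q.collar e q) = circ (α e q) := by
      rw [Model.collar, Q.chartCirc_proj false (P.endMap_mem e hq)]
      exact P.circMap_collar e (hang e) hq
    have h1 : Q.chartCirc true (Q.collar e q) = circ (α e (latTurn q)) := by
      rw [Model.collar, ← Q.proj_glue e q hq,
        Q.chartCirc_proj true (P.endMap_mem e (latTurn_mem hq))]
      exact P.circMap_collar e (hang e) (latTurn_mem hq)
    rw [h0, h1, sq, hS, ← circ_add, ← circ_add]
    congr 1
    ring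

/-- The fibre class of the first copy is nontrivial. -/
theorem Model.fib_ne_one : Q.fib false ≠ 1 := by
  obtain ⟨s, hs, hsq⟩ := Q.exists_root
  set U₀ := Q.proj false '' P.dom3 with hU₀
  set U₁ := Q.proj true '' P.dom3 with hU₁
  let γ : Path (Q.base false) (Q.base false) :=
    { toFun := fun t => Q.fibMap false (0, (t : ℝ))
      continuous_toFun := by fun_prop
      source' := rfl
      target' := by simpa using Q.fibMap_int false 0 1 }
  have hγ : Q.fib false = FundamentalGroup.fromPath (Path.Homotopic.Quotient.mk γ) := by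
    refine congrArg _ (seg_eq_mk _ _ _ _ _ γ fun t => ?_)
    show Q.fibMap false _ = Q.fibMap false _
    simp
  have hK : range γ ⊆ U₀ := by
    rintro _ ⟨t, rfl⟩
    exact ⟨_, (P.z₀_mem : ((P.z₀.1, P.z₀.2, (t : ℝ)) : E3) ∈ P.dom3), rfl⟩
  have hKc : IsClosed (range γ) := (isCompact_range γ.continuous).isClosed
  obtain ⟨W, hW, hCW, hWV⟩ := normal_exists_closure_subset
    (Q.isOpen_chartImage false).isClosed_compl ((Q.isOpen_chartImage true).sdiff hKc)
    (fun x hx => by
      obtain ⟨b, y, hy, rfl⟩ := Q.proj_surj x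
      refine ⟨?_, fun h => hx (hK h)⟩
      cases b
      · exact absurd ⟨y, hy, rfl⟩ hx
      · exact ⟨y, hy, rfl⟩)
  obtain ⟨a₁, hs₁, he₁, -⟩ := exists_tsupport_one_of_isOpen_isClosed
    ((Q.isOpen_chartImage true).sdiff hKc) isClosed_closure.isCompact isClosed_closure hWV
  obtain ⟨a₀, hs₀, he₀, -⟩ := exists_tsupport_one_of_isOpen_isClosed
    (Q.isOpen_chartImage false) isClosed_closure.isCompact hW.isClosed_compl
    (compl_subset_comm.1 hCW)
  rw [hγ]
  refine Cover.class_ne_one (Q.isOpen_chartImage false) (Q.isOpen_chartImage true)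
    (Q.continuousOn_chartCirc false) (Q.continuousOn_chartCirc true) hs (Q.chartCirc_ne_zero false)
    (Q.chartCirc_ne_zero true) hsq a₀.continuous a₁.continuous hs₀
    (hs₁.trans sdiff_subset) (fun x => ?_) γ (fun t => ?_) (c := P.phase P.z₀) (fun t => ?_)
  · by_cases hx : x ∈ W
    · exact .inr (by rw [he₁ (subset_closure hx)]; exact one_ne_zero)
    · exact .inl (by rw [he₀ hx]; exact one_ne_zero)
  · exact image_eq_zero_of_notMem_tsupport fun h => (hs₁ h).2 ⟨t, rfl⟩
  · show Q.chartCirc false (Q.proj false _) = _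
    rw [Q.chartCirc_proj false (P.z₀_mem : ((P.z₀.1, P.z₀.2, (t : ℝ)) : E3) ∈ P.dom3)]
    exact mul_comm _ _

end

end Vale.Agent.P255
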