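import Mathlib

/-!
Homotopy classes read from maps of the plane, and conjugation of loops by paths.
-/


namespace Vale.Agent.P255.Loops

noncomputable section

variable {X Y : Type*} [TopologicalSpace X] [TopologicalSpace Y]

/-- The class of any path of the plane from `p` to `q`, pushed to `X` by `F`, with the endpoints
renamed. -/
def seg (F : C(ℝ × ℝ, X)) (p q : ℝ × ℝ) {x y : X} (hp : F p = x) (hq : F q = y) :
    Path.Homotopic.Quotient x y :=
  ((Path.Homotopic.Quotient.mk (Path.segment p q)).map F).cast hp.symm hq.symm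

lemma seg_trans (F : C(ℝ × ℝ, X)) (p q r : ℝ × ℝ) {x y z : X} (hp : F p = x) (hq : F q = y)
    (hr : F r = z) : (seg F p q hp hq).trans (seg F q r hq hr) = seg F p r hp hr := by
  subst hp hq hr
  simp only [seg, Path.Homotopic.Quotient.cast_rfl_rfl, ← Path.Homotopic.Quotient.mk_map, ← Path.Homotopic.Quotient.mk_trans, ← Path.map_trans]
  rw [Path.Homotopic.Quotient.eq]
  exact (SimplyConnectedSpace.paths_homotopic _ _).map F

lemma seg_self (F : C(ℝ × ℝ, X)) (p : ℝ × ℝ) {x : X} (hp : F p = x) :
    seg F p p hp hp = Path.Homotopic.Quotient.refl x := by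
  subst hp
  simp only [seg, Path.Homotopic.Quotient.cast_rfl_rfl]
  rw [← Path.Homotopic.Quotient.mk_map, ← Path.Homotopic.Quotient.mk_refl, Path.Homotopic.Quotient.eq]
  exact (SimplyConnectedSpace.paths_homotopic (Path.segment p p) (Path.refl p)).map F

lemma seg_symm (F : C(ℝ × ℝ, X)) (p q : ℝ × ℝ) {x y : X} (hp : F p = x) (hq : F q = y) :
    (seg F p q hp hq).symm = seg F q p hq hp := by
  calc (seg F p q hp hq).symm
      = (seg F p q hp hq).symm.trans ((seg F p q hp hq).trans (seg F q p hq hp)) := by
        rw [seg_trans, seg_self, Path.Homotopic.Quotient.trans_refl]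
    _ = _ := by rw [← Path.Homotopic.Quotient.trans_assoc, Path.Homotopic.Quotient.symm_trans, Path.Homotopic.Quotient.refl_trans]

lemma seg_eq_mk (F : C(ℝ × ℝ, X)) (p q : ℝ × ℝ) {x y : X} (hp : F p = x) (hq : F q = y)
    (γ : Path x y) (h : ∀ s : unitInterval, F (p + (s : ℝ) • (q - p)) = γ s) :
    seg F p q hp hq = Path.Homotopic.Quotient.mk γ := by
  subst hp hq
  simp only [seg, Path.Homotopic.Quotient.cast_rfl_rfl, ← Path.Homotopic.Quotient.mk_map]
  refine congrArg _ (Path.ext (funext fun s => ?_))
  rw [← h s]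
  simp only [Path.map_coe, Function.comp_apply, Path.segment_apply, AffineMap.lineMap_apply_module]
  congr 1
  module

lemma seg_congr (F G : C(ℝ × ℝ, X)) (p q p' q' : ℝ × ℝ) {x y : X} (hp : F p = x) (hq : F q = y)
    (hp' : G p' = x) (hq' : G q' = y)
    (h : ∀ s : unitInterval, F (p + (s : ℝ) • (q - p)) = G (p' + (s : ℝ) • (q' - p'))) :
    seg F p q hp hq = seg G p' q' hp' hq' := by
  rw [seg_eq_mk F p q hp hq ((((Path.segment p' q').map G.continuous)).cast hp'.symm hq'.symm)
    (fun s => by
      rw [h s]
      simp only [Path.cast_coe, Path.map_coe, Function.comp_apply, Path.segment_apply,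
        AffineMap.lineMap_apply_module]
      congr 1
      module)]
  subst hp' hq'
  rfl

lemma seg_cast (F : C(ℝ × ℝ, X)) (p q : ℝ × ℝ) {x y x' y' : X} (hp : F p = x) (hq : F q = y)
    (hx : x' = x) (hy : y' = y) :
    (seg F p q hp hq).cast hx hy = seg F p q (hp.trans hx.symm) (hq.trans hy.symm) := by
  subst hx hy
  rw [Path.Homotopic.Quotient.cast_rfl_rfl]

lemma seg_map (F : C(ℝ × ℝ, X)) (g : C(X, Y)) (p q : ℝ × ℝ) {x y : X} (hp : F p = x)
    (hq : F q = y) :
    (seg F p q hp hq).map g = seg (g.comp F) p q (congrArg g hp) (congrArg g hq) := by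
  subst hp hq
  simp only [seg, Path.Homotopic.Quotient.cast_rfl_rfl, ← Path.Homotopic.Quotient.map_comp]

lemma seg_comp (F : C(ℝ × ℝ, X)) (Φ : C(ℝ × ℝ, ℝ × ℝ)) (p q : ℝ × ℝ) {x y : X}
    (hp : F (Φ p) = x) (hq : F (Φ q) = y) :
    seg (F.comp Φ) p q hp hq = seg F (Φ p) (Φ q) hp hq := by
  subst hp hq
  simp only [seg, Path.Homotopic.Quotient.cast_rfl_rfl, Path.Homotopic.Quotient.map_comp]
  exact congrArg (fun z => Path.Homotopic.Quotient.map z F) (Subsingleton.elim _ _)

variable {o o' x : X}

/-- A loop at `x` conjugated to `o` by a path from `o` to `x`. -/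
def cj (w : Path.Homotopic.Quotient o x) (γ : Path.Homotopic.Quotient x x) : FundamentalGroup X o :=
  FundamentalGroup.fromPath (w.trans (γ.trans w.symm))

lemma cj_mul (w : Path.Homotopic.Quotient o x) (γ γ' : Path.Homotopic.Quotient x x) :
    cj w γ * cj w γ' = cj w (γ'.trans γ) := by
  change (w.trans (γ'.trans w.symm)).trans (w.trans (γ.trans w.symm)) =
    w.trans ((γ'.trans γ).trans w.symm)
  simp only [Path.Homotopic.Quotient.trans_assoc]
  rw [← Path.Homotopic.Quotient.trans_assoc w.symm w, Path.Homotopic.Quotient.symm_trans, Path.Homotopic.Quotient.refl_trans]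

lemma cj_commute (w : Path.Homotopic.Quotient o x) {γ γ' : Path.Homotopic.Quotient x x}
    (h : γ.trans γ' = γ'.trans γ) : Commute (cj w γ) (cj w γ') := by
  unfold Commute SemiconjBy
  rw [cj_mul, cj_mul, h]

lemma cj_symm (w : Path.Homotopic.Quotient o x) (γ : Path.Homotopic.Quotient x x) :
    cj w γ.symm = (cj w γ)⁻¹ := by
  refine eq_inv_of_mul_eq_one_left ?_
  rw [cj_mul, Path.Homotopic.Quotient.trans_symm]
  change w.trans ((Path.Homotopic.Quotient.refl x).trans w.symm) = Path.Homotopic.Quotient.refl o
  rw [Path.Homotopic.Quotient.refl_trans, Path.Homotopic.Quotient.trans_symm]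

/-- The element carrying one conjugate of a loop to another. -/
def bridge (w v : Path.Homotopic.Quotient o x) : FundamentalGroup X o :=
  FundamentalGroup.fromPath (w.trans v.symm)

lemma bridge_conj (w v : Path.Homotopic.Quotient o x) (γ : Path.Homotopic.Quotient x x) :
    bridge w v * cj w γ * (bridge w v)⁻¹ = cj v γ := by
  rw [mul_inv_eq_iff_eq_mul]
  change (w.trans (γ.trans w.symm)).trans (w.trans v.symm) =
    (w.trans v.symm).trans (v.trans (γ.trans v.symm))
  simp only [Path.Homotopic.Quotient.trans_assoc]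
  rw [← Path.Homotopic.Quotient.trans_assoc w.symm w, Path.Homotopic.Quotient.symm_trans, Path.Homotopic.Quotient.refl_trans,
    ← Path.Homotopic.Quotient.trans_assoc v.symm v, Path.Homotopic.Quotient.symm_trans, Path.Homotopic.Quotient.refl_trans]

lemma cj_trans (v : Path.Homotopic.Quotient o o') (w : Path.Homotopic.Quotient o' x)
    (γ : Path.Homotopic.Quotient x x) :
    cj (v.trans w) γ = cj v (cj w γ : FundamentalGroup X o').toPath := by
  change (v.trans w).trans (γ.trans (v.trans w).symm) =
    v.trans ((w.trans (γ.trans w.symm)).trans v.symm)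
  have h : (v.trans w).symm = w.symm.trans v.symm := by
    calc (v.trans w).symm
        = (v.trans w).symm.trans ((v.trans w).trans (w.symm.trans v.symm)) := by
          rw [Path.Homotopic.Quotient.trans_assoc v w, ← Path.Homotopic.Quotient.trans_assoc w w.symm, Path.Homotopic.Quotient.trans_symm,
            Path.Homotopic.Quotient.refl_trans, Path.Homotopic.Quotient.trans_symm, Path.Homotopic.Quotient.trans_refl]
      _ = _ := by rw [← Path.Homotopic.Quotient.trans_assoc, Path.Homotopic.Quotient.symm_trans, Path.Homotopic.Quotient.refl_trans]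
  rw [h]
  simp only [Path.Homotopic.Quotient.trans_assoc]

lemma cj_injective (v : Path.Homotopic.Quotient o x) {γ : Path.Homotopic.Quotient x x}
    (h : cj v γ = 1) : γ = Path.Homotopic.Quotient.refl x := by
  have h' : v.trans (γ.trans v.symm) = Path.Homotopic.Quotient.refl o := h
  calc γ = v.symm.trans ((v.trans (γ.trans v.symm)).trans v) := by
        simp only [Path.Homotopic.Quotient.trans_assoc]
        rw [Path.Homotopic.Quotient.symm_trans, Path.Homotopic.Quotient.trans_refl, ← Path.Homotopic.Quotient.trans_assoc v.symm v,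
          Path.Homotopic.Quotient.symm_trans, Path.Homotopic.Quotient.refl_trans]
    _ = _ := by rw [h', Path.Homotopic.Quotient.refl_trans, Path.Homotopic.Quotient.symm_trans]

/-- Conjugation by a path as a homomorphism on loops. -/
lemma cj_list_prod (v : Path.Homotopic.Quotient o x) (l : List (FundamentalGroup X x)) :
    (l.map fun γ => cj v γ.toPath).prod = cj v l.prod.toPath := by
  induction l with
  | nil =>
    change (1 : FundamentalGroup X o) = v.trans ((Path.Homotopic.Quotient.refl x).trans v.symm)
    rw [Path.Homotopic.Quotient.refl_trans, Path.Homotopic.Quotient.trans_symm]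
    rfl
  | cons a l ih =>
    rw [List.map_cons, List.prod_cons, List.prod_cons, ih, cj_mul]
    rfl

end

end Vale.Agent.P255.Loops
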