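import Vale.Agent.P255.Glue.Open
import Vale.Agent.P255.Glue.Loops

/-!
The loops of one copy of the piece: the fibre, the boundary loops, and the loops of a middle torus.
-/

open Set Filter
open scoped Topology

namespace Vale.Agent.P255

noncomputable section

open Loops

variable {N : ℕ} {P : Piece N} (Q : Model P)

/-- A continuous map of the plane into the coordinate domain, read in a copy. -/
def Model.flat (b : Bool) (G : ℝ × ℝ → E3) (hG : Continuous G) (hm : ∀ p, G p ∈ P.dom3) :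
    C(ℝ × ℝ, Q.M) :=
  ⟨fun p => Q.proj b (G p), (Q.continuousOn_proj b).comp_continuous hG hm⟩

/-- The base point of a copy. -/
def Model.base (b : Bool) : Q.M := Q.proj b (P.z₀.1, P.z₀.2, 0)

lemma latShift_zero_snd (s : ℝ) : ((0 : ℝ), (0 : ℝ), s) ∈ collarSet := by
  simp [collarSet]

lemma mem_middle (a u : ℝ) : ((0 : ℝ), a, u) ∈ collarSet := by
  simp [collarSet]

lemma add_vert (y : E3) (s : ℝ) : y + (0, 0, s) = (y.1, y.2.1, y.2.2 + s) := by
  simp [Prod.ext_iff]

lemma Model.proj_add_int (b : Bool) {x₁ x₂ θ : ℝ} (h : (x₁, x₂) ∈ P.dom) (l : ℤ) :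
    Q.proj b (x₁, x₂, θ + (l : ℝ)) = Q.proj b (x₁, x₂, θ) := by
  have := Q.proj_shift b (x₁, x₂, θ) h l
  rwa [add_vert] at this

/-- The fibre through the base point. -/
def Model.fibMap (b : Bool) : C(ℝ × ℝ, Q.M) :=
  Q.flat b (fun p => (P.z₀.1, P.z₀.2, p.2)) (by fun_prop) (fun _ => P.z₀_mem)

lemma Model.fibMap_apply (b : Bool) (p : ℝ × ℝ) :
    Q.fibMap b p = Q.proj b (P.z₀.1, P.z₀.2, p.2) := rfl

lemma Model.fibMap_int (b : Bool) (x : ℝ) (l : ℤ) : Q.fibMap b (x, (l : ℝ)) = Q.base b := by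
  have h := Q.proj_add_int b (θ := 0) P.z₀_mem l
  rw [Q.fibMap_apply, Model.base, ← h, zero_add]

/-- The class of the fibre. -/
def Model.fib (b : Bool) : FundamentalGroup Q.M (Q.base b) :=
  FundamentalGroup.fromPath (seg (Q.fibMap b) (0, 0) (0, 1) rfl
    (by simpa using Q.fibMap_int b 0 1))

/-- The planar point of an end over the middle circle. -/
def Piece.mid (P : Piece N) (e : Fin N) (u : ℝ) : ℝ × ℝ :=
  ((P.endMap e (0, 0, u)).1, (P.endMap e (0, 0, u)).2.1)

lemma Piece.continuous_endMid (P : Piece N) (e : Fin N) :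
    Continuous fun p : ℝ × ℝ => P.endMap e (0, p.1, p.2) :=
  (P.end_smooth e).continuousOn.comp_continuous (by fun_prop) fun _ => mem_middle _ _

lemma Piece.continuous_mid (P : Piece N) (e : Fin N) : Continuous (P.mid e) := by
  have h : Continuous fun u : ℝ => P.endMap e (0, 0, u) :=
    (P.continuous_endMid e).comp (continuous_const.prodMk continuous_id)
  exact h.fst.prodMk h.snd.fst

lemma Piece.mid_periodic (P : Piece N) (e : Fin N) : P.mid e 1 = P.mid e 0 := by
  have h := P.end_shift e (0, 0, 0) (mem_middle 0 0) 0 1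
  simp only [latShift, Int.cast_zero, Int.cast_one, Prod.mk_add_mk, add_zero, zero_add] at h
  simp [Piece.mid, h, add_vert]

/-- The boundary loop at an end, as a curve. -/
def Piece.bdry (P : Piece N) (e : Fin N) (s : ℝ) : ℝ × ℝ :=
  if s ≤ 1 / 3 then P.spoke e (3 * s)
  else if s ≤ 2 / 3 then P.mid e (3 * s - 1) else P.spoke e (3 - 3 * s)

lemma Piece.continuous_bdry (P : Piece N) (e : Fin N) : Continuous (P.bdry e) := by
  unfold Piece.bdry
  refine Continuous.if_le ((P.spoke_cont e).comp (by fun_prop)) ?_ continuous_id continuous_const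
    fun s hs => ?_
  · refine Continuous.if_le ((P.continuous_mid e).comp (by fun_prop))
      ((P.spoke_cont e).comp (by fun_prop)) continuous_id continuous_const fun s hs => ?_
    have h1 : (3 : ℝ) * s - 1 = 1 := by linarith
    have h2 : (3 : ℝ) - 3 * s = 1 := by linarith
    simp only [h1, h2, P.mid_periodic e, P.spoke_one]
    rfl
  · rw [if_pos (by linarith)]
    have h1 : (3 : ℝ) * s = 1 := by linarith
    have h2 : (3 : ℝ) * s - 1 = 0 := by linarith
    simp only [h1, P.spoke_one, sub_self]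
    rfl

lemma Piece.bdry_mem (P : Piece N) (e : Fin N) {s : ℝ} (hs : s ∈ Icc (0 : ℝ) 1) :
    P.bdry e s ∈ P.dom := by
  unfold Piece.bdry
  split_ifs with h h'
  · exact P.spoke_mem e _ ⟨by linarith [hs.1], by linarith⟩
  · exact P.end_mem e _ (latShift_zero_snd _)
  · exact P.spoke_mem e _ ⟨by linarith [hs.2], by linarith⟩

lemma Piece.bdry_one (P : Piece N) (e : Fin N) : P.bdry e 1 = P.z₀ := by
  norm_num [Piece.bdry, P.spoke_zero]

lemma Piece.bdry_zero (P : Piece N) (e : Fin N) : P.bdry e 0 = P.z₀ := by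
  norm_num [Piece.bdry, P.spoke_zero]

/-- The boundary loop at an end. -/
def Piece.bdryPath (P : Piece N) (e : Fin N) :
    Path (⟨P.z₀, P.z₀_mem⟩ : P.dom) ⟨P.z₀, P.z₀_mem⟩ where
  toFun s := ⟨P.bdry e s, P.bdry_mem e s.2⟩
  continuous_toFun := ((P.continuous_bdry e).comp continuous_subtype_val).subtype_mk _
  source' := Subtype.ext (P.bdry_zero e)
  target' := Subtype.ext (P.bdry_one e)

lemma Piece.bdryPath_spec (P : Piece N) (e : Fin N) (s : unitInterval) :
    ((P.bdryPath e s : P.dom) : ℝ × ℝ) =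
      if (s : ℝ) ≤ 1 / 3 then P.spoke e (3 * s)
      else if (s : ℝ) ≤ 2 / 3 then
        ((P.endMap e (0, 0, 3 * s - 1)).1, (P.endMap e (0, 0, 3 * s - 1)).2.1)
      else P.spoke e (3 - 3 * s) := rfl

/-- The planar domain in a copy, at height zero. -/
def Model.planar (b : Bool) : C(P.dom, Q.M) :=
  ⟨fun z => Q.proj b (z.1.1, z.1.2, 0),
    (Q.continuousOn_proj b).comp_continuous (by fun_prop) fun z => z.2⟩

/-- The boundary loop at an end, in a copy. -/
def Model.bloop (b : Bool) (e : Fin N) : FundamentalGroup Q.M (Q.base b) :=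
  FundamentalGroup.map (Q.planar b) ⟨P.z₀, P.z₀_mem⟩
    (FundamentalGroup.fromPath (Path.Homotopic.Quotient.mk (P.bdryPath e)))

lemma Model.bloop_prod (b : Bool) :
    ((List.finRange N).map fun i => Q.bloop b (P.order i)).prod = 1 := by
  have h := congrArg (FundamentalGroup.map (Q.planar b) ⟨P.z₀, P.z₀_mem⟩)
    (P.boundary P.bdryPath P.bdryPath_spec)
  rw [map_list_prod, map_one, List.map_map] at h
  exact h

/-- The common point of an edge. -/
def Model.edgePt (e : Fin N) : Q.M := Q.proj false (P.endMap e (0, 0, 0))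

lemma latTurn_apply (y : E3) : latTurn y = (-y.1, y.2.2, -y.2.1) := rfl

lemma Model.proj_edgePt (b : Bool) (e : Fin N) : Q.proj b (P.endMap e (0, 0, 0)) = Q.edgePt e := by
  cases b
  · rfl
  · have h := Q.proj_glue e (0, 0, 0) (mem_middle 0 0)
    simp only [latTurn_apply, neg_zero] at h
    exact h

/-- The middle torus of an edge in a copy. -/
def Model.torus (b : Bool) (e : Fin N) : C(ℝ × ℝ, Q.M) :=
  Q.flat b (fun p => P.endMap e (0, p.1, p.2)) (P.continuous_endMid e)
    (fun _ => P.endMap_mem e (mem_middle _ _))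

lemma Model.torus_apply (b : Bool) (e : Fin N) (p : ℝ × ℝ) :
    Q.torus b e p = Q.proj b (P.endMap e (0, p.1, p.2)) := rfl

lemma Model.torus_periodic (b : Bool) (e : Fin N) (a u : ℝ) (i j : ℤ) :
    Q.torus b e (a + (i : ℝ), u + (j : ℝ)) = Q.torus b e (a, u) := by
  simp only [Q.torus_apply]
  have h := P.end_shift e (0, a, u) (mem_middle a u) i j
  simp only [latShift, Prod.mk_add_mk, add_zero] at h
  rw [h, Q.proj_shift b _ (P.endMap_mem e (mem_middle a u))]

lemma Model.torus_int (b : Bool) (e : Fin N) (i j : ℤ) :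
    Q.torus b e ((i : ℝ), (j : ℝ)) = Q.edgePt e := by
  have h := Q.torus_periodic b e 0 0 i j
  simp only [zero_add] at h
  rw [h, Q.torus_apply]
  exact Q.proj_edgePt b e

/-- The fibre loop of the middle torus. -/
def Model.loopA (b : Bool) (e : Fin N) : Path.Homotopic.Quotient (Q.edgePt e) (Q.edgePt e) :=
  seg (Q.torus b e) (0, 0) (1, 0) (by simpa using Q.torus_int b e 0 0)
    (by simpa using Q.torus_int b e 1 0)

/-- The transverse loop of the middle torus. -/
def Model.loopB (b : Bool) (e : Fin N) : Path.Homotopic.Quotient (Q.edgePt e) (Q.edgePt e) :=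
  seg (Q.torus b e) (0, 0) (0, 1) (by simpa using Q.torus_int b e 0 0)
    (by simpa using Q.torus_int b e 0 1)

lemma Model.torus_comm (b : Bool) (e : Fin N) :
    (Q.loopA b e).trans (Q.loopB b e) = (Q.loopB b e).trans (Q.loopA b e) := by
  have h00 : Q.torus b e (0, 0) = Q.edgePt e := by simpa using Q.torus_int b e 0 0
  have h01 : Q.torus b e (0, 1) = Q.edgePt e := by simpa using Q.torus_int b e 0 1
  have h10 : Q.torus b e (1, 0) = Q.edgePt e := by simpa using Q.torus_int b e 1 0
  have h11 : Q.torus b e (1, 1) = Q.edgePt e := by simpa using Q.torus_int b e 1 1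
  have eA : seg (Q.torus b e) (0, 1) (1, 1) h01 h11 = Q.loopA b e :=
    seg_congr _ _ _ _ _ _ _ _ _ _ fun s => by
      have := Q.torus_periodic b e (s : ℝ) 0 0 1
      simpa using this
  have eB : seg (Q.torus b e) (1, 0) (1, 1) h10 h11 = Q.loopB b e :=
    seg_congr _ _ _ _ _ _ _ _ _ _ fun s => by
      have := Q.torus_periodic b e 0 (s : ℝ) 1 0
      simpa using this
  conv_lhs => rw [← eB]
  conv_rhs => rw [← eA]
  exact (seg_trans _ _ _ _ h00 h10 h11).trans (seg_trans _ _ _ _ h00 h01 h11).symm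

/-- The height of an end at the middle. -/
def Piece.height (P : Piece N) (e : Fin N) (u : ℝ) : ℝ := (P.endMap e (0, 0, u)).2.2

/-- The strip over a spoke. -/
def Model.spokeMap (b : Bool) (e : Fin N) : C(ℝ × ℝ, Q.M) :=
  Q.flat b
    (fun p => ((P.spoke e (projIcc 0 1 zero_le_one p.1)).1,
      (P.spoke e (projIcc 0 1 zero_le_one p.1)).2, p.2))
    (by have := P.spoke_cont e; fun_prop) (fun p => P.spoke_mem e _ (projIcc _ _ _ _).2)

lemma Model.spokeMap_apply (b : Bool) (e : Fin N) {x : ℝ} (hx : x ∈ Icc (0 : ℝ) 1) (s : ℝ) :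
    Q.spokeMap b e (x, s) = Q.proj b ((P.spoke e x).1, (P.spoke e x).2, s) := by
  change Q.proj b _ = _
  simp [projIcc_of_mem zero_le_one hx]

lemma Model.spokeMap_left (b : Bool) (e : Fin N) (l : ℤ) :
    Q.spokeMap b e (0, (l : ℝ)) = Q.base b := by
  rw [Q.spokeMap_apply b e ⟨le_rfl, zero_le_one⟩, P.spoke_zero, ← Q.fibMap_int b 0 l]
  rfl

lemma Model.spokeMap_right (b : Bool) (e : Fin N) (l : ℤ) :
    Q.spokeMap b e (1, P.height e 0 + (l : ℝ)) = Q.edgePt e := by
  have hmem := P.end_mem e (0, 0, 0) (mem_middle 0 0)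
  rw [Q.spokeMap_apply b e ⟨zero_le_one, le_rfl⟩, P.spoke_one, Q.proj_add_int b hmem l]
  exact Q.proj_edgePt b e

/-- The path from the base point of a copy to an edge. -/
def Model.whisker (b : Bool) (e : Fin N) :
    Path.Homotopic.Quotient (Q.base b) (Q.edgePt e) :=
  seg (Q.spokeMap b e) (0, 0) (1, P.height e 0) (by simpa using Q.spokeMap_left b e 0)
    (by simpa using Q.spokeMap_right b e 0)

lemma Model.cj_loopA (b : Bool) (e : Fin N) : cj (Q.whisker b e) (Q.loopA b e) = Q.fib b := by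
  set θ := P.height e 0
  have hmem := P.end_mem e (0, 0, 0) (mem_middle 0 0)
  have p00 : Q.spokeMap b e (0, 0) = Q.base b := by simpa using Q.spokeMap_left b e 0
  have p01 : Q.spokeMap b e (0, 1) = Q.base b := by simpa using Q.spokeMap_left b e 1
  have p10 : Q.spokeMap b e (1, θ) = Q.edgePt e := by simpa using Q.spokeMap_right b e 0
  have p11 : Q.spokeMap b e (1, θ + 1) = Q.edgePt e := by simpa using Q.spokeMap_right b e 1
  have eA : Q.loopA b e = seg (Q.spokeMap b e) (1, θ) (1, θ + 1) p10 p11 := by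
    refine seg_congr _ _ _ _ _ _ _ _ _ _ fun s => ?_
    have h := P.end_fiber e (0, 0, 0) (mem_middle 0 0) (s : ℝ)
    simp only [Prod.mk_add_mk, add_zero, zero_add] at h
    simp only [Prod.mk_sub_mk, sub_zero, sub_self, Prod.smul_mk, smul_eq_mul, mul_one, mul_zero,
      Prod.mk_add_mk, zero_add, add_zero, add_sub_cancel_left]
    rw [Q.torus_apply, h, Q.spokeMap_apply b e ⟨zero_le_one, le_rfl⟩, P.spoke_one, add_vert]
    rfl
  have eW : (Q.whisker b e).symm = seg (Q.spokeMap b e) (1, θ + 1) (0, 1) p11 p01 := by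
    rw [Model.whisker, seg_symm]
    refine seg_congr _ _ _ _ _ _ _ _ _ _ fun s => ?_
    have hs : 1 + (s : ℝ) * (0 - 1) ∈ Icc (0 : ℝ) 1 :=
      ⟨by linarith [s.2.2], by linarith [s.2.1]⟩
    simp only [Prod.mk_sub_mk, Prod.smul_mk, smul_eq_mul, Prod.mk_add_mk]
    rw [Q.spokeMap_apply b e hs, Q.spokeMap_apply b e hs]
    have := Q.proj_add_int b (θ := θ + (s : ℝ) * (0 - θ))
      (P.spoke_mem e _ hs) 1
    rw [← this]
    congr 3
    push_cast
    ring
  show (Q.whisker b e).trans ((Q.loopA b e).trans (Q.whisker b e).symm) = _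
  rw [eA, eW, Model.whisker, seg_trans, seg_trans]
  change seg _ _ _ _ _ = seg (Q.fibMap b) (0, 0) (0, 1) rfl (by simpa using Q.fibMap_int b 0 1)
  refine seg_congr _ _ _ _ _ _ _ _ _ _ fun s => ?_
  simp only [Prod.mk_sub_mk, sub_zero, Prod.smul_mk, smul_eq_mul, mul_one, mul_zero,
    Prod.mk_add_mk, zero_add]
  rw [Q.spokeMap_apply b e ⟨le_rfl, zero_le_one⟩, P.spoke_zero, Q.fibMap_apply]

/-- The strip over a boundary loop. -/
def Model.bdryMap (b : Bool) (e : Fin N) : C(ℝ × ℝ, Q.M) :=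
  Q.flat b
    (fun p => ((P.bdry e (projIcc 0 1 zero_le_one p.1)).1,
      (P.bdry e (projIcc 0 1 zero_le_one p.1)).2, p.2))
    (by have := P.continuous_bdry e; fun_prop) (fun p => P.bdry_mem e (projIcc _ _ _ _).2)

lemma Model.bdryMap_apply (b : Bool) (e : Fin N) {x : ℝ} (hx : x ∈ Icc (0 : ℝ) 1) (s : ℝ) :
    Q.bdryMap b e (x, s) = Q.proj b ((P.bdry e x).1, (P.bdry e x).2, s) := by
  change Q.proj b _ = _
  simp [projIcc_of_mem zero_le_one hx]

lemma Model.bdryMap_left (b : Bool) (e : Fin N) (l : ℤ) :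
    Q.bdryMap b e (0, (l : ℝ)) = Q.base b := by
  rw [Q.bdryMap_apply b e ⟨le_rfl, zero_le_one⟩, P.bdry_zero, ← Q.fibMap_int b 0 l]
  rfl

lemma Model.bdryMap_right (b : Bool) (e : Fin N) (l : ℤ) :
    Q.bdryMap b e (1, (l : ℝ)) = Q.base b := by
  rw [Q.bdryMap_apply b e ⟨zero_le_one, le_rfl⟩, P.bdry_one, ← Q.fibMap_int b 0 l]
  rfl

lemma Model.bloop_eq_seg (b : Bool) (e : Fin N) :
    (Q.bloop b e).toPath = seg (Q.bdryMap b e) (0, 0) (1, 0)
      (by simpa using Q.bdryMap_left b e 0) (by simpa using Q.bdryMap_right b e 0) := by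
  refine (seg_eq_mk _ _ _ _ _ ((P.bdryPath e).map (Q.planar b).continuous) fun s => ?_).symm
  simp only [Prod.mk_sub_mk, sub_zero, Prod.smul_mk, smul_eq_mul, mul_one, mul_zero,
    Prod.mk_add_mk, zero_add]
  rw [Q.bdryMap_apply b e s.2]
  rfl

lemma Model.fib_comm_bloop (b : Bool) (e : Fin N) : Commute (Q.fib b) (Q.bloop b e) := by
  have p00 : Q.bdryMap b e (0, 0) = Q.base b := by simpa using Q.bdryMap_left b e 0
  have p01 : Q.bdryMap b e (0, 1) = Q.base b := by simpa using Q.bdryMap_left b e 1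
  have p10 : Q.bdryMap b e (1, 0) = Q.base b := by simpa using Q.bdryMap_right b e 0
  have p11 : Q.bdryMap b e (1, 1) = Q.base b := by simpa using Q.bdryMap_right b e 1
  have eL : (Q.fib b).toPath = seg (Q.bdryMap b e) (0, 0) (0, 1) p00 p01 := by
    change seg (Q.fibMap b) (0, 0) (0, 1) rfl (by simpa using Q.fibMap_int b 0 1) = _
    refine seg_congr _ _ _ _ _ _ _ _ _ _ fun s => ?_
    simp only [Prod.mk_sub_mk, sub_zero, Prod.smul_mk, smul_eq_mul, mul_one, mul_zero,
      Prod.mk_add_mk, zero_add]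
    rw [Q.bdryMap_apply b e ⟨le_rfl, zero_le_one⟩, P.bdry_zero, Q.fibMap_apply]
  have eR : (Q.fib b).toPath = seg (Q.bdryMap b e) (1, 0) (1, 1) p10 p11 := by
    change seg (Q.fibMap b) (0, 0) (0, 1) rfl (by simpa using Q.fibMap_int b 0 1) = _
    refine seg_congr _ _ _ _ _ _ _ _ _ _ fun s => ?_
    simp only [Prod.mk_sub_mk, sub_zero, sub_self, Prod.smul_mk, smul_eq_mul, mul_one, mul_zero,
      Prod.mk_add_mk, zero_add, add_zero]
    rw [Q.bdryMap_apply b e ⟨zero_le_one, le_rfl⟩, P.bdry_one, Q.fibMap_apply]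
  have eT : (Q.bloop b e).toPath = seg (Q.bdryMap b e) (0, 1) (1, 1) p01 p11 := by
    rw [Q.bloop_eq_seg]
    refine seg_congr _ _ _ _ _ _ _ _ _ _ fun s => ?_
    simp only [Prod.mk_sub_mk, sub_zero, sub_self, Prod.smul_mk, smul_eq_mul, mul_one, mul_zero,
      Prod.mk_add_mk, zero_add, add_zero]
    rw [Q.bdryMap_apply b e s.2, Q.bdryMap_apply b e s.2]
    have := Q.proj_add_int b (θ := 0) (P.bdry_mem e s.2) 1
    simp only [Int.cast_one, zero_add] at this
    exact this.symm
  show (Q.bloop b e).toPath.trans (Q.fib b).toPath = (Q.fib b).toPath.trans (Q.bloop b e).toPath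
  conv_lhs => rw [eR, Q.bloop_eq_seg]
  conv_rhs => rw [eL, eT]
  rw [seg_trans, seg_trans]

lemma Model.seg_fib_euler (b : Bool) (e : Fin N) :
    seg (Q.bdryMap b e) (1, 0) (1, (euler e : ℝ)) (by simpa using Q.bdryMap_right b e 0)
        (Q.bdryMap_right b e (euler e)) =
      (Q.fib b ^ euler e : FundamentalGroup Q.M (Q.base b)).toPath := by
  unfold euler
  split_ifs
  · rw [zpow_one]
    change _ = seg (Q.fibMap b) (0, 0) (0, 1) rfl (by simpa using Q.fibMap_int b 0 1)
    refine seg_congr _ _ _ _ _ _ _ _ _ _ fun s => ?_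
    simp only [Int.cast_one, Prod.mk_sub_mk, sub_zero, sub_self, Prod.smul_mk, smul_eq_mul,
      mul_one, mul_zero, Prod.mk_add_mk, zero_add, add_zero]
    rw [Q.bdryMap_apply b e ⟨zero_le_one, le_rfl⟩, P.bdry_one, Q.fibMap_apply]
  · simp only [Int.cast_zero]
    rw [seg_self, zpow_zero]
    rfl

/-- The skew change of coordinates from the middle third of a boundary loop to a middle circle. -/
def Piece.skew (P : Piece N) (e : Fin N) : C(ℝ × ℝ, ℝ × ℝ) :=
  ⟨fun p => (3 * p.1 - 1, p.2 - P.height e (3 * p.1 - 1)), by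
    have h : Continuous fun u : ℝ => P.endMap e (0, 0, u) :=
      (P.continuous_endMid e).comp (continuous_const.prodMk continuous_id)
    have h' : Continuous (P.height e) := h.snd.snd
    fun_prop⟩

/-- The middle circle times the fibre. -/
def Model.midMap (b : Bool) (e : Fin N) : C(ℝ × ℝ, Q.M) :=
  Q.flat b (fun p => P.endMap e (0, 0, p.1) + (0, 0, p.2))
    (by
      have h : Continuous fun u : ℝ => P.endMap e (0, 0, u) :=
        (P.continuous_endMid e).comp (continuous_const.prodMk continuous_id)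
      exact (h.comp continuous_fst).add
        (continuous_const.prodMk (continuous_const.prodMk continuous_snd)))
    (fun p => by
      rw [add_vert]
      exact P.end_mem e _ (latShift_zero_snd p.1))

lemma Piece.height_one (P : Piece N) (e : Fin N) :
    P.height e 1 = P.height e 0 + (euler e : ℝ) := by
  have h := P.end_shift e (0, 0, 0) (mem_middle 0 0) 0 1
  simp only [latShift, Int.cast_zero, Int.cast_one, Prod.mk_add_mk, add_zero, zero_add] at h
  simp [Piece.height, h, add_vert]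

lemma Model.cj_loopB (b : Bool) (e : Fin N) :
    cj (Q.whisker b e) (Q.loopB b e) = Q.fib b ^ euler e * Q.bloop b e := by
  set θ := P.height e 0 with hθ
  set k : ℝ := (euler e : ℝ) with hk
  have p00 : Q.bdryMap b e (0, 0) = Q.base b := by simpa using Q.bdryMap_left b e 0
  have p10 : Q.bdryMap b e (1, 0) = Q.base b := by simpa using Q.bdryMap_right b e 0
  have p1k : Q.bdryMap b e (1, k) = Q.base b := Q.bdryMap_right b e (euler e)
  have hmid : ∀ (s : ℝ) (l : ℤ), s = 0 ∨ s = 1 →
      Q.bdryMap b e ((1 + s) / 3, θ + (l : ℝ)) = Q.edgePt e := by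
    intro s l hs
    have h3 : P.bdry e ((1 + s) / 3) = P.mid e 0 := by
      rcases hs with rfl | rfl
      · norm_num [Piece.bdry, P.spoke_one, Piece.mid]
      · norm_num [Piece.bdry, P.mid_periodic]
    rw [Q.bdryMap_apply b e ⟨by rcases hs with rfl | rfl <;> norm_num,
      by rcases hs with rfl | rfl <;> norm_num⟩, h3]
    simp only [Piece.mid]
    rw [Q.proj_add_int b (P.end_mem e _ (mem_middle 0 0)) l]
    exact Q.proj_edgePt b e
  have pa : Q.bdryMap b e (1 / 3, θ) = Q.edgePt e := by simpa using hmid 0 0 (.inl rfl)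
  have pb : Q.bdryMap b e (2 / 3, θ + k) = Q.edgePt e := by
    have := hmid 1 (euler e) (.inr rfl)
    rwa [show ((1 : ℝ) + 1) / 3 = 2 / 3 by norm_num] at this
  have eW : Q.whisker b e = seg (Q.bdryMap b e) (0, 0) (1 / 3, θ) p00 pa := by
    refine seg_congr _ _ _ _ _ _ _ _ _ _ fun s => ?_
    simp only [Prod.mk_sub_mk, sub_zero, Prod.smul_mk, smul_eq_mul, mul_one,
      Prod.mk_add_mk, zero_add]
    rw [Q.spokeMap_apply b e s.2,
      Q.bdryMap_apply b e ⟨by linarith [s.2.1], by linarith [s.2.2]⟩]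
    rw [show P.bdry e ((s : ℝ) * (1 / 3)) = P.spoke e (s : ℝ) by
      rw [Piece.bdry, if_pos (by linarith [s.2.2])]; congr 1; ring]
  have hskew : ∀ p, Q.midMap b e (P.skew e p) =
      Q.proj b ((P.mid e (3 * p.1 - 1)).1, (P.mid e (3 * p.1 - 1)).2, p.2) := fun p => by
    show Q.proj b (_ + _) = _
    rw [add_vert]
    simp [Piece.skew, Piece.mid, Piece.height]
  have eB : Q.loopB b e = seg (Q.bdryMap b e) (1 / 3, θ) (2 / 3, θ + k) pa pb := by
    have ha : P.skew e (1 / 3, θ) = (0, 0) := by norm_num [Piece.skew, hθ]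
    have hb : P.skew e (2 / 3, θ + k) = (1, 0) := by
      norm_num [Piece.skew, hθ, hk, P.height_one]
    have q0 : Q.midMap b e (0, 0) = Q.edgePt e := by
      show Q.proj b (_ + _) = _
      rw [add_vert, add_zero]
      exact Q.proj_edgePt b e
    have q1 : Q.midMap b e (1, 0) = Q.edgePt e := by
      show Q.proj b (_ + _) = _
      rw [add_vert, add_zero]
      have h := Q.torus_int b e 0 1
      simp only [Int.cast_zero, Int.cast_one] at h
      exact h
    have e1 : Q.loopB b e = seg (Q.midMap b e) (0, 0) (1, 0) q0 q1 := by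
      refine seg_congr _ _ _ _ _ _ _ _ _ _ fun s => ?_
      simp only [Prod.mk_sub_mk, sub_zero, Prod.smul_mk, smul_eq_mul, mul_one, mul_zero,
        Prod.mk_add_mk, zero_add]
      rw [Q.torus_apply]
      show _ = Q.proj b (_ + _)
      rw [add_vert, add_zero]
    have e2 : seg (Q.midMap b e) (0, 0) (1, 0) q0 q1 =
        seg (Q.midMap b e) (P.skew e (1 / 3, θ)) (P.skew e (2 / 3, θ + k))
          (by rw [ha]; exact q0) (by rw [hb]; exact q1) := by
      refine seg_congr _ _ _ _ _ _ _ _ _ _ fun s => ?_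
      rw [ha, hb]
    rw [e1, e2, ← seg_comp]
    refine seg_congr _ _ _ _ _ _ _ _ _ _ fun s => ?_
    simp only [Prod.mk_sub_mk, Prod.smul_mk, smul_eq_mul, Prod.mk_add_mk, ContinuousMap.comp_apply]
    rw [hskew, Q.bdryMap_apply b e ⟨by linarith [s.2.1], by linarith [s.2.2]⟩]
    have h3 : P.bdry e (1 / 3 + (s : ℝ) * (2 / 3 - 1 / 3)) =
        P.mid e (3 * (1 / 3 + (s : ℝ) * (2 / 3 - 1 / 3)) - 1) := by
      unfold Piece.bdry
      split_ifs with h h'
      · have h0 : (s : ℝ) = 0 := le_antisymm (by linarith) s.2.1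
        norm_num [h0, P.spoke_one, Piece.mid]
      · rfl
      · exfalso; linarith [s.2.2]
    rw [h3]
  have eW' : (Q.whisker b e).symm = seg (Q.bdryMap b e) (2 / 3, θ + k) (1, k) pb p1k := by
    rw [Model.whisker, seg_symm]
    refine seg_congr _ _ _ _ _ _ _ _ _ _ fun s => ?_
    simp only [Prod.mk_sub_mk, Prod.smul_mk, smul_eq_mul, Prod.mk_add_mk]
    have hs : 1 + (s : ℝ) * (0 - 1) ∈ Icc (0 : ℝ) 1 :=
      ⟨by linarith [s.2.2], by linarith [s.2.1]⟩
    rw [Q.spokeMap_apply b e hs,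
      Q.bdryMap_apply b e ⟨by linarith [s.2.1], by linarith [s.2.2]⟩]
    have h3 : P.bdry e (2 / 3 + (s : ℝ) * (1 - 2 / 3)) = P.spoke e (1 + (s : ℝ) * (0 - 1)) := by
      unfold Piece.bdry
      split_ifs with h h'
      · exfalso; linarith [s.2.1]
      · have h0 : (s : ℝ) = 0 := le_antisymm (by linarith) s.2.1
        norm_num [h0]
        rw [P.mid_periodic, P.spoke_one]
        rfl
      · congr 1; ring
    rw [h3, ← Q.proj_add_int b (P.spoke_mem e _ hs) (euler e), ← hk]
    congr 3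
    ring
  show (Q.whisker b e).trans ((Q.loopB b e).trans (Q.whisker b e).symm) =
    (Q.bloop b e).toPath.trans (Q.fib b ^ euler e : FundamentalGroup Q.M (Q.base b)).toPath
  rw [eW', eW, eB, seg_trans, seg_trans, ← Q.seg_fib_euler, Q.bloop_eq_seg, seg_trans]

end

end Vale.Agent.P255
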