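import Vale.Agent.P255.Model

/-!
The coordinate maps of a model are open, and continuity descends through them.
-/

open Set Filter Manifold
open scoped ContDiff Topology

namespace Vale.Agent.P255

noncomputable section

variable {N : ℕ} {P : Piece N} (Q : Model P)

lemma Piece.isOpen_dom3 (P : Piece N) : IsOpen P.dom3 :=
  P.isOpen_dom.preimage (continuous_fst.prodMk (continuous_fst.comp continuous_snd))

lemma isOpen_collarSet : IsOpen collarSet := isOpen_Ioo.preimage continuous_fst

lemma Piece.endMap_mem (P : Piece N) (e : Fin N) {q : E3} (hq : q ∈ collarSet) :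
    P.endMap e q ∈ P.dom3 := P.end_mem e q hq

/-- A map with a bijective derivative is open at the point. -/
lemma map_nhds_of_bijective {f : E3 → E3} {y : E3} (hf : ContDiffAt ℝ ∞ f y)
    (hd : Function.Bijective (fderiv ℝ f y)) : Filter.map f (𝓝 y) = 𝓝 (f y) := by
  let L : E3 ≃L[ℝ] E3 :=
    (LinearEquiv.ofBijective (fderiv ℝ f y : E3 →ₗ[ℝ] E3) hd).toContinuousLinearEquiv
  have h : HasStrictFDerivAt f (L : E3 →L[ℝ] E3) y := hf.hasStrictFDerivAt (by simp)
  exact h.map_nhds_eq_of_equiv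

lemma Model.map_proj_nhds (b : Bool) {y : E3} (hy : y ∈ P.dom3) :
    Filter.map (Q.proj b) (𝓝 y) = 𝓝 (Q.proj b y) := by
  set x := Q.proj b y with hx
  set ψ := extChartAt 𝓘(ℝ, E3) x with hψ
  set h : E3 → E3 := fun z => ψ (Q.proj b z) with hh
  have hpc : ContMDiffAt 𝓘(ℝ, E3) 𝓘(ℝ, E3) ∞ (Q.proj b) y :=
    (Q.proj_smooth b).contMDiffAt (P.isOpen_dom3.mem_nhds hy)
  have hψc : ContMDiffAt 𝓘(ℝ, E3) 𝓘(ℝ, E3) ∞ ψ x := contMDiffAt_extChartAt
  have hcd : ContDiffAt ℝ ∞ h y := contMDiffAt_iff_contDiffAt.1 (hψc.comp y hpc)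
  have hd : Function.Bijective (fderiv ℝ h y) := by
    have e := mfderiv_comp y (hψc.mdifferentiableAt (by simp)) (hpc.mdifferentiableAt (by simp))
    rw [mfderiv_eq_fderiv] at e
    have hb : Function.Bijective (mfderiv 𝓘(ℝ, E3) 𝓘(ℝ, E3) ψ x) := by
      have hinv : (mfderiv 𝓘(ℝ, E3) 𝓘(ℝ, E3) ψ x).IsInvertible :=
        isInvertible_mfderiv_extChartAt (mem_extChartAt_source x)
      obtain ⟨M', hM'⟩ := hinv
      rw [← hM']
      exact M'.bijective
    show Function.Bijective (fderiv ℝ (ψ ∘ Q.proj b) y)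
    rw [e]
    exact hb.comp (Q.proj_inv b y hy)
  have h1 : Filter.map h (𝓝 y) = 𝓝 (ψ x) := map_nhds_of_bijective hcd hd
  have hev : Q.proj b =ᶠ[𝓝 y] fun z => ψ.symm (h z) := by
    filter_upwards [hpc.continuousAt.preimage_mem_nhds (extChartAt_source_mem_nhds (I := 𝓘(ℝ, E3)) x)] with z hz
    exact (ψ.left_inv hz).symm
  have h2 : Filter.map ψ.symm (𝓝 (ψ x)) = 𝓝 x := by
    have h3 : Filter.map ψ (𝓝 x) = 𝓝 (ψ x) := map_extChartAt_nhds_of_boundaryless x
    rw [← h3, Filter.map_map]
    refine (Filter.map_congr ?_).trans Filter.map_id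
    filter_upwards [extChartAt_source_mem_nhds (I := 𝓘(ℝ, E3)) x] with z hz
    exact ψ.left_inv hz
  rw [Filter.map_congr hev, show (fun z => ψ.symm (h z)) = ψ.symm ∘ h from rfl, ← Filter.map_map,
    h1, h2]

lemma Piece.map_endMap_nhds (P : Piece N) (e : Fin N) {q : E3} (hq : q ∈ collarSet) :
    Filter.map (P.endMap e) (𝓝 q) = 𝓝 (P.endMap e q) :=
  map_nhds_of_bijective ((P.end_smooth e).contDiffAt (isOpen_collarSet.mem_nhds hq))
    (P.end_inv e q hq)

/-- The collar coordinates of the edge `e` in the manifold. -/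
def Model.collar (e : Fin N) (q : E3) : Q.M := Q.proj false (P.endMap e q)

lemma Model.map_collar_nhds (e : Fin N) {q : E3} (hq : q ∈ collarSet) :
    Filter.map (Q.collar e) (𝓝 q) = 𝓝 (Q.collar e q) := by
  have h := Q.map_proj_nhds false (P.endMap_mem e hq)
  rw [← P.map_endMap_nhds e hq, Filter.map_map] at h
  exact h

lemma Model.continuousOn_proj (b : Bool) : ContinuousOn (Q.proj b) P.dom3 :=
  (Q.proj_smooth b).continuousOn

lemma Model.continuousOn_collar (e : Fin N) : ContinuousOn (Q.collar e) collarSet :=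
  (Q.continuousOn_proj false).comp (P.end_smooth e).continuousOn fun _ hq => P.endMap_mem e hq

/-- Continuity descends through a map which is open at every point. -/
lemma continuousOn_image {A B C : Type*} [TopologicalSpace A] [TopologicalSpace B]
    [TopologicalSpace C] {g : A → B} {F : B → C} {S : Set A}
    (hg : ∀ x ∈ S, Filter.map g (𝓝 x) = 𝓝 (g x))
    (hS : IsOpen S) (hF : ContinuousOn (fun x => F (g x)) S) : ContinuousOn F (g '' S) := by
  rintro _ ⟨x, hx, rfl⟩
  refine ContinuousAt.continuousWithinAt ?_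
  rw [ContinuousAt, Tendsto, ← hg x hx, Filter.map_map]
  exact hF.continuousAt (hS.mem_nhds hx)

lemma isOpen_image_of_map_nhds {A B : Type*} [TopologicalSpace A] [TopologicalSpace B]
    {g : A → B} {S : Set A} (hg : ∀ x ∈ S, Filter.map g (𝓝 x) = 𝓝 (g x)) (hS : IsOpen S) :
    IsOpen (g '' S) := by
  refine isOpen_iff_mem_nhds.2 ?_
  rintro _ ⟨x, hx, rfl⟩
  rw [← hg x hx]
  exact Filter.image_mem_map (hS.mem_nhds hx)

lemma Model.isOpen_chartImage (b : Bool) : IsOpen (Q.proj b '' P.dom3) :=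
  isOpen_image_of_map_nhds (fun _ hy => Q.map_proj_nhds b hy) P.isOpen_dom3

lemma latShift_mem {q : E3} (hq : q ∈ collarSet) (i j : ℤ) : q + latShift i j ∈ collarSet := by
  simp only [collarSet, mem_ofPred_eq, latShift, Prod.fst_add, add_zero] at hq ⊢
  exact hq

/-- The fibres of a collar map are the lattice orbits. -/
lemma Model.collar_eq_iff (e : Fin N) {q q' : E3} (hq : q ∈ collarSet) (hq' : q' ∈ collarSet) :
    Q.collar e q = Q.collar e q' ↔ ∃ i j : ℤ, q' = q + latShift i j := by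
  constructor
  · intro h
    rcases Q.proj_eq false false _ (P.endMap_mem e hq) _ (P.endMap_mem e hq') h with h' | h'
    · obtain ⟨-, l, hl⟩ := h'
      exact P.end_inj e q hq q' hq' l hl
    · exact absurd rfl h'.1
  · rintro ⟨i, j, rfl⟩
    simp only [Model.collar]
    rw [P.end_shift e q hq i j, Q.proj_shift false _ (P.endMap_mem e hq)]

end

end Vale.Agent.P255
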